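import Vale.Agent.P157.Small.Moment
import Mathlib.Analysis.Convex.Mul

/-!
The convexity gap of the second moment and the bound on the higher moments: one pattern,
joint against blocks.
-/

open MeasureTheory ProbabilityTheory
open scoped BigOperators

namespace Vale.Agent.P157.Small

variable {ι : Type*} [Fintype ι] {β : Type*} [Fintype β]

/-- The second order Taylor bound for `exp (-t)` on `t ≥ 0`. -/
lemma exp_neg_taylor {a t : ℝ} (ha : 0 ≤ a) (ht : 0 ≤ t) :
    |Real.exp (-t) - Real.exp (-a) + Real.exp (-a) * (t - a)| ≤ (t - a) ^ 2 := by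
  have h1 := Real.add_one_le_exp (-(t - a))
  have e : Real.exp (-t) = Real.exp (-a) * Real.exp (-(t - a)) := by
    rw [← Real.exp_add]; congr 1; ring
  have hpos := Real.exp_pos (-a)
  have hlow : 0 ≤ Real.exp (-t) - Real.exp (-a) + Real.exp (-a) * (t - a) := by
    rw [e]; nlinarith
  rw [abs_of_nonneg hlow]
  rcases le_total a t with h | h
  · have h2 : Real.exp (-(t - a)) ≤ 1 / (1 + (t - a)) := by
      rw [Real.exp_neg, ← one_div]
      exact one_div_le_one_div_of_le (by linarith) (by linarith [Real.add_one_le_exp (t - a)])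
    have h3 : 1 / (1 + (t - a)) ≤ 1 - (t - a) + (t - a) ^ 2 := by
      rw [div_le_iff₀ (by linarith)]; nlinarith [pow_nonneg (sub_nonneg.2 h) 3]
    have h4 : Real.exp (-a) ≤ 1 := Real.exp_le_one_iff.2 (by linarith)
    rw [e]; nlinarith [sq_nonneg (t - a)]
  · have h2 : Real.exp (-a) = Real.exp (-t) * Real.exp (-(a - t)) := by
      rw [← Real.exp_add]; congr 1; ring
    have h4 : Real.exp (-t) ≤ 1 := Real.exp_le_one_iff.2 (by linarith)
    have h5 := Real.add_one_le_exp (-(a - t))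
    have h6 := Real.exp_pos (-t)
    have h7 : Real.exp (-(a - t)) ≤ 1 := Real.exp_le_one_iff.2 (by linarith)
    rw [h2]
    nlinarith [mul_nonneg (sub_nonneg.2 h) (sub_nonneg.2 h7), sq_nonneg (t - a)]

/-- The variance of the overlaps over the blocks. -/
def spread (c : ι → ℝ) (cb : β → ι → ℝ) (w : β → ℝ) (x y : ι → ℝ) : ℝ :=
  ∑ b, w b * (ov (cb b) x y - ov c x y) ^ 2

/-- The squared frequency. -/
noncomputable def Data.s2 (D : Data) : ℝ := ∫ p, p.1 ^ 2 ∂D.law

/-- The second Fourier moment. -/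
noncomputable def Data.a2 (D : Data) : ℝ :=
  ∫ p, p.2 * (p.1 ^ 2 * Real.exp (-p.1 ^ 2 / 2)) ∂D.law

lemma ov_avg (c : ι → ℝ) (cb : β → ι → ℝ) (w : β → ℝ)
    (hc : ∀ j, c j ^ 2 = ∑ b, w b * cb b j ^ 2) (x y : ι → ℝ) :
    ov c x y = ∑ b, w b * ov (cb b) x y := by
  simp only [ov, hc, Finset.mul_sum, Finset.sum_mul]
  rw [Finset.sum_comm]
  exact Finset.sum_congr rfl fun b _ => Finset.sum_congr rfl fun j _ => by ring

lemma abs_ov_le {c x y : ι → ℝ} (hx : ov c x x = 1) (hy : ov c y y = 1) : |ov c x y| ≤ 1 := by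
  have h : ∀ s : ℝ, s ^ 2 = 1 → s * ov c x y ≤ 1 := fun s hs => by
    have : ∑ j, c j ^ 2 * (s * (x j * y j)) ≤ ∑ j, c j ^ 2 * ((x j * x j + y j * y j) / 2) :=
      Finset.sum_le_sum fun j _ => mul_le_mul_of_nonneg_left
        (by rcases sq_eq_one_iff.1 hs with rfl | rfl <;>
          nlinarith [sq_nonneg (x j - y j), sq_nonneg (x j + y j)]) (sq_nonneg _)
    have e1 : s * ov c x y = ∑ j, c j ^ 2 * (s * (x j * y j)) := by
      rw [ov, Finset.mul_sum]; exact Finset.sum_congr rfl fun j _ => by ring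
    have e2 : ∑ j, c j ^ 2 * ((x j * x j + y j * y j) / 2) = (ov c x x + ov c y y) / 2 := by
      rw [ov, ov, ← Finset.sum_add_distrib, Finset.sum_div]
      exact Finset.sum_congr rfl fun j _ => by ring
    linarith
  exact abs_le.2 ⟨by linarith [h (-1) (by norm_num)], by linarith [h 1 (by norm_num)]⟩

variable (c : ι → ℝ) (cb : β → ι → ℝ) (w : β → ℝ)

/-- The Jensen defect of the replica integrand. -/
noncomputable def defect {n : ℕ} (p : Fin n → Rep ι) : ℝ :=
  ∑ b, w b * wt (cb b) p - wt c p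

variable {c cb w}

/-- Pointwise bound on the defect. -/
lemma abs_defect_le (hw0 : ∀ b, 0 ≤ w b) (hw1 : ∑ b, w b = 1)
    (hc : ∀ j, c j ^ 2 = ∑ b, w b * cb b j ^ 2) {n : ℕ} (p : Fin n → Rep ι)
    (hs : ∀ a, |(p a).2.2| ≤ 1) :
    |defect c cb w p| ≤ (n : ℝ) ^ 2 / 4
      * ∑ a, ∑ a', (p a).2.1 ^ 2 * (p a').2.1 ^ 2 * spread c cb w (p a).1 (p a').1 := by
  have hbar : qf c p = ∑ b, w b * qf (cb b) p := by
    simp only [qf_eq, ov_avg c cb w hc, Finset.mul_sum]
    conv_rhs => rw [Finset.sum_comm]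
    refine Finset.sum_congr rfl fun a _ => ?_
    rw [Finset.sum_comm]
    exact Finset.sum_congr rfl fun b _ => Finset.sum_congr rfl fun a' _ => by ring
  set q : β → ℝ := fun b => qf (cb b) p / 2
  set qb := qf c p / 2
  have hlin : ∑ b, w b * (Real.exp (-qb) * (q b - qb)) = 0 := by
    have : ∑ b, w b * (q b - qb) = 0 := by
      simp only [mul_sub, Finset.sum_sub_distrib, ← Finset.sum_mul, hw1, one_mul, q, qb, hbar,
        Finset.sum_div]
      rw [sub_eq_zero]
      exact Finset.sum_congr rfl fun b _ => by ring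
    calc _ = Real.exp (-qb) * ∑ b, w b * (q b - qb) := by
          rw [Finset.mul_sum]; exact Finset.sum_congr rfl fun b _ => by ring
      _ = 0 := by rw [this, mul_zero]
  have e : defect c cb w p = (∏ a, (p a).2.2) * ∑ b, w b *
      (Real.exp (-q b) - Real.exp (-qb) + Real.exp (-qb) * (q b - qb)) := by
    simp only [mul_add, mul_sub, Finset.sum_add_distrib, Finset.sum_sub_distrib, ← Finset.sum_mul,
      hw1, one_mul] at hlin ⊢
    rw [defect]
    simp only [wt, q, qb, neg_div] at hlin ⊢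
    rw [show ∑ b, w b * ((∏ a, (p a).2.2) * Real.exp (-(qf (cb b) p / 2)))
      = (∏ a, (p a).2.2) * ∑ b, w b * Real.exp (-(qf (cb b) p / 2)) by
        rw [Finset.mul_sum]; exact Finset.sum_congr rfl fun b _ => by ring]
    linear_combination -(∏ a, (p a).2.2) * hlin
  rw [e, abs_mul]
  refine (mul_le_of_le_one_left (abs_nonneg _) (abs_sign_prod_le hs)).trans ?_
  refine (Finset.abs_sum_le_sum_abs _ _).trans ?_
  have hb : ∀ b, |w b * (Real.exp (-q b) - Real.exp (-qb) + Real.exp (-qb) * (q b - qb))|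
      ≤ w b * ((n : ℝ) ^ 2 / 4 * ∑ a, ∑ a', (p a).2.1 ^ 2 * (p a').2.1 ^ 2
          * (ov (cb b) (p a).1 (p a').1 - ov c (p a).1 (p a').1) ^ 2) := fun b => by
    rw [abs_mul, abs_of_nonneg (hw0 b)]
    refine mul_le_mul_of_nonneg_left ?_ (hw0 b)
    refine (exp_neg_taylor (div_nonneg (qf_nonneg _ _) two_pos.le)
      (div_nonneg (qf_nonneg _ _) two_pos.le)).trans ?_
    have hd : q b - qb = (∑ z : Fin n × Fin n, (p z.1).2.1 * (p z.2).2.1
        * (ov (cb b) (p z.1).1 (p z.2).1 - ov c (p z.1).1 (p z.2).1)) / 2 := by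
      simp only [q, qb, qf_eq, Fintype.sum_prod_type, mul_sub, Finset.sum_sub_distrib]
      ring
    have hcs := Finset.sum_mul_sq_le_sq_mul_sq (Finset.univ : Finset (Fin n × Fin n)) (fun _ => (1 : ℝ))
      (fun z => (p z.1).2.1 * (p z.2).2.1
        * (ov (cb b) (p z.1).1 (p z.2).1 - ov c (p z.1).1 (p z.2).1))
    simp only [one_mul, one_pow, Finset.sum_const, nsmul_eq_mul, mul_one] at hcs
    simp only [Finset.card_univ, Fintype.card_prod, Fintype.card_fin, Nat.cast_mul] at hcs
    show (q b - qb) ^ 2 ≤ _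
    rw [hd, div_pow, ← Fintype.sum_prod_type'
      (f := fun a a' => (p a).2.1 ^ 2 * (p a').2.1 ^ 2
        * (ov (cb b) (p a).1 (p a').1 - ov c (p a).1 (p a').1) ^ 2)]
    simp only [mul_pow] at hcs
    linarith
  refine (Finset.sum_le_sum fun b _ => hb b).trans (le_of_eq ?_)
  simp only [spread, Finset.mul_sum]
  rw [Finset.sum_comm]
  refine Finset.sum_congr rfl fun a _ => ?_
  rw [Finset.sum_comm]
  exact Finset.sum_congr rfl fun a' _ => Finset.sum_congr rfl fun b _ => by ring

variable (D : Data) (G : Measure (ι → ℝ)) [IsProbabilityMeasure G]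

/-- The averaged spread. -/
noncomputable def avgSpread (c : ι → ℝ) (cb : β → ι → ℝ) (w : β → ℝ) : ℝ :=
  ∫ z, spread c cb w z.1 z.2 ∂G.prod G

lemma spread_nonneg (hw0 : ∀ b, 0 ≤ w b) (x y : ι → ℝ) : 0 ≤ spread c cb w x y :=
  Finset.sum_nonneg fun b _ => mul_nonneg (hw0 b) (sq_nonneg _)

omit [IsProbabilityMeasure G] in
lemma avgSpread_nonneg (hw0 : ∀ b, 0 ≤ w b) : 0 ≤ avgSpread G c cb w :=
  integral_nonneg fun _ => spread_nonneg hw0 _ _

lemma spread_le (hw0 : ∀ b, 0 ≤ w b) (hw1 : ∑ b, w b = 1) {x y : ι → ℝ}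
    (hb : ∀ b, |ov (cb b) x y| ≤ 1) (h : |ov c x y| ≤ 1) : spread c cb w x y ≤ 4 := by
  calc spread c cb w x y ≤ ∑ b, w b * 4 := Finset.sum_le_sum fun b _ =>
        mul_le_mul_of_nonneg_left (by nlinarith [abs_le.1 (hb b), abs_le.1 h]) (hw0 b)
    _ = 4 := by rw [← Finset.sum_mul, hw1, one_mul]

/-- Two coordinates of the replicas are independent. -/
lemma map_pair {α : Type*} [MeasurableSpace α] (P : Measure α) [IsProbabilityMeasure P] {n : ℕ}
    {a a' : Fin n} (h : a ≠ a') :
    (Measure.pi fun _ : Fin n => P).map (fun p => (p a, p a')) = P.prod P := by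
  refine (Measure.prod_eq fun s t hs ht => ?_).symm
  rw [Measure.map_apply (by fun_prop) (hs.prod ht)]
  have e : (fun p : Fin n → α => (p a, p a')) ⁻¹' s ×ˢ t
      = Set.pi Set.univ fun i => if i = a then s else if i = a' then t else Set.univ := by
    ext p
    simp only [Set.mem_preimage, Set.mem_prod, Set.mem_pi, Set.mem_univ, forall_const]
    refine ⟨fun ⟨h1, h2⟩ i => ?_, fun hp => ⟨?_, ?_⟩⟩
    · split_ifs with i1 i2
      · subst i1; exact h1
      · subst i2; exact h2
      · trivial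
    · simpa using hp a
    · simpa [h.symm] using hp a'
  rw [e, Measure.pi_pi, ← Finset.mul_prod_erase _ _ (Finset.mem_univ a),
    ← Finset.mul_prod_erase _ _ (Finset.mem_erase.2 ⟨h.symm, Finset.mem_univ a'⟩), if_pos rfl,
    if_neg h.symm, if_pos rfl, Finset.prod_eq_one ?_, mul_one]
  intro i hi
  simp only [Finset.mem_erase] at hi
  simp [hi.1, hi.2.1]

section Ae

variable {D G}

/-- Unit field variance. -/
def Unitary (G : Measure (ι → ℝ)) (c : ι → ℝ) : Prop := ∀ᵐ x ∂G, ov c x x = 1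

omit [IsProbabilityMeasure G] in
lemma unitary_avg (hw1 : ∑ b, w b = 1) (hc : ∀ j, c j ^ 2 = ∑ b, w b * cb b j ^ 2)
    (hv : ∀ b, Unitary G (cb b)) : Unitary G c := by
  filter_upwards [ae_all_iff.2 hv] with x hx
  simp [ov_avg c cb w hc, hx, hw1]

omit [IsProbabilityMeasure G] in
lemma ae_good (hw1 : ∑ b, w b = 1) (hc : ∀ j, c j ^ 2 = ∑ b, w b * cb b j ^ 2)
    (hv : ∀ b, Unitary G (cb b)) :
    ∀ᵐ x ∂G, ov c x x = 1 ∧ ∀ b, ov (cb b) x x = 1 := by
  filter_upwards [unitary_avg hw1 hc hv, ae_all_iff.2 hv] with x h1 h2 using ⟨h1, h2⟩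

end Ae

/-- Higher moments: the defect is quadratic in the overlap spread. -/
lemma abs_integral_defect_le (hw0 : ∀ b, 0 ≤ w b) (hw1 : ∑ b, w b = 1)
    (hc : ∀ j, c j ^ 2 = ∑ b, w b * cb b j ^ 2) (hv : ∀ b, Unitary G (cb b)) (n : ℕ) :
    |∫ p, defect c cb w p ∂repLaw D G n|
      ≤ (n : ℝ) ^ 4 / 4 * (D.s2 ^ 2 * avgSpread G c cb w) := by
  have hgood := ae_good hw1 hc hv
  set H : Rep ι × Rep ι → ℝ := fun z => z.1.2.1 ^ 2 * z.2.2.1 ^ 2 * spread c cb w z.1.1 z.2.1
  have hHm : Measurable H := by simp only [H, spread, ov]; fun_prop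
  have hHi : Integrable H ((G.prod D.law).prod (G.prod D.law)) := by
    have h1 : Integrable (fun z : Rep ι => z.2.1 ^ 2) (G.prod D.law) := D.sq.comp_snd G
    refine ((h1.mul_prod h1).const_mul 4).mono' hHm.aestronglyMeasurable ?_
    have hg1 := (Measure.quasiMeasurePreserving_fst (μ := G) (ν := D.law)).ae hgood
    filter_upwards [(Measure.quasiMeasurePreserving_fst (μ := G.prod D.law) (ν := G.prod D.law)).ae hg1,
      (Measure.quasiMeasurePreserving_snd (μ := G.prod D.law) (ν := G.prod D.law)).ae hg1] with z hx hy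
    rw [Real.norm_eq_abs, abs_of_nonneg (mul_nonneg (by positivity) (spread_nonneg hw0 _ _))]
    calc z.1.2.1 ^ 2 * z.2.2.1 ^ 2 * spread c cb w z.1.1 z.2.1 ≤ z.1.2.1 ^ 2 * z.2.2.1 ^ 2 * 4 :=
          mul_le_mul_of_nonneg_left (spread_le hw0 hw1 (fun b => abs_ov_le (hx.2 b) (hy.2 b))
            (abs_ov_le hx.1 hy.1)) (by positivity)
      _ = _ := by ring
  have hsi : Integrable (fun z : (ι → ℝ) × (ι → ℝ) => spread c cb w z.1 z.2) (G.prod G) := by
    refine Integrable.of_bound (by unfold spread ov; fun_prop) 4 ?_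
    filter_upwards [(Measure.quasiMeasurePreserving_fst (μ := G) (ν := G)).ae hgood,
      (Measure.quasiMeasurePreserving_snd (μ := G) (ν := G)).ae hgood] with z hx hy
    rw [Real.norm_eq_abs, abs_of_nonneg (spread_nonneg hw0 _ _)]
    exact spread_le hw0 hw1 (fun b => abs_ov_le (hx.2 b) (hy.2 b)) (abs_ov_le hx.1 hy.1)
  have hprod : ∫ z, H z ∂(G.prod D.law).prod (G.prod D.law) = D.s2 ^ 2 * avgSpread G c cb w := by
    rw [integral_prod _ hHi]
    have inner : ∀ z : Rep ι, ∫ z', H (z, z') ∂G.prod D.law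
        = (∫ y, spread c cb w z.1 y ∂G) * (z.2.1 ^ 2 * D.s2) := by
      intro z
      calc ∫ z', H (z, z') ∂G.prod D.law
          = ∫ z' : Rep ι, spread c cb w z.1 z'.1 * (z.2.1 ^ 2 * z'.2.1 ^ 2) ∂G.prod D.law :=
            integral_congr_ae (ae_of_all _ fun z' => by simp only [H]; ring)
        _ = (∫ y, spread c cb w z.1 y ∂G) * ∫ q : ℝ × ℝ, z.2.1 ^ 2 * q.1 ^ 2 ∂D.law :=
            integral_prod_mul (f := fun y => spread c cb w z.1 y)
              (g := fun q : ℝ × ℝ => z.2.1 ^ 2 * q.1 ^ 2)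
        _ = _ := by rw [integral_const_mul, Data.s2]
    simp only [inner]
    calc _ = (∫ x, ∫ y, spread c cb w x y ∂G ∂G) * ∫ q : ℝ × ℝ, q.1 ^ 2 * D.s2 ∂D.law :=
          integral_prod_mul (f := fun x => ∫ y, spread c cb w x y ∂G)
            (g := fun q : ℝ × ℝ => q.1 ^ 2 * D.s2)
      _ = _ := by
          rw [avgSpread, integral_prod _ hsi, integral_mul_const, Data.s2]
          ring
  have hpair : ∀ a a' : Fin n, Integrable (fun p => H (p a, p a')) (repLaw D G n) ∧
      ∫ p, H (p a, p a') ∂repLaw D G n ≤ D.s2 ^ 2 * avgSpread G c cb w := by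
    intro a a'
    rcases eq_or_ne a a' with rfl | h
    · have hz : ∀ᵐ p ∂repLaw D G n, H (p a, p a) = 0 := by
        have := (Measure.quasiMeasurePreserving_eval (μ := fun _ : Fin n => G.prod D.law) (i := a)).ae
          ((Measure.quasiMeasurePreserving_fst (μ := G) (ν := D.law)).ae hgood)
        filter_upwards [this] with p hp
        simp [H, spread, hp.1, hp.2]
      refine ⟨(integrable_zero _ _ _).congr (hz.mono fun p hp => hp.symm), ?_⟩
      rw [integral_congr_ae hz]
      simp only [integral_zero]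
      exact mul_nonneg (sq_nonneg _) (avgSpread_nonneg G hw0)
    · have hm : Measurable fun p : Fin n → Rep ι => (p a, p a') := by fun_prop
      have hmap := map_pair (G.prod D.law) h
      constructor
      · have h2 : Integrable H ((repLaw D G n).map fun p => (p a, p a')) := by
          rw [repLaw, hmap]; exact hHi
        exact h2.comp_measurable hm
      · rw [← hprod, ← hmap, integral_map hm.aemeasurable hHm.aestronglyMeasurable]
        rfl
  have hi1 : Integrable (fun p => (n : ℝ) ^ 2 / 4 * ∑ a, ∑ a', H (p a, p a')) (repLaw D G n) :=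
    (integrable_finsetSum _ fun a _ => integrable_finsetSum _ fun a' _ => (hpair a a').1).const_mul _
  refine (abs_integral_le_integral_abs).trans ?_
  calc ∫ p, |defect c cb w p| ∂repLaw D G n
      ≤ ∫ p, (n : ℝ) ^ 2 / 4 * ∑ a, ∑ a', H (p a, p a') ∂repLaw D G n := by
        refine integral_mono_of_nonneg (ae_of_all _ fun p => abs_nonneg _) hi1 ?_
        exact (ae_sign D G n).mono fun p hp => abs_defect_le hw0 hw1 hc p hp
    _ ≤ (n : ℝ) ^ 2 / 4 * ∑ _a : Fin n, ∑ _a' : Fin n, D.s2 ^ 2 * avgSpread G c cb w := by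
        rw [integral_const_mul, integral_finsetSum _ fun a _ =>
          integrable_finsetSum _ fun a' _ => (hpair a a').1]
        refine mul_le_mul_of_nonneg_left (Finset.sum_le_sum fun a _ => ?_) (by positivity)
        rw [integral_finsetSum _ fun a' _ => (hpair a a').1]
        exact Finset.sum_le_sum fun a' _ => (hpair a a').2
    _ = _ := by simp; ring

end Vale.Agent.P157.Small
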