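import Vale.Agent.P157.Limit

/-!
Splitting into blocks for any potential whose one-pattern average favours the joint system.
-/

open MeasureTheory ProbabilityTheory Filter Topology
open scoped BigOperators

namespace Vale.Agent.P157.Small

open Vale.Agent.P157

variable {f : ℝ → ℝ} {B : ℝ}

/-- One pattern seen by the whole system is at least its average over the blocks. -/
def OnePattern {ι : Type*} [Fintype ι] {β : Type*} [Fintype β] (μ : Measure (ι → ℝ)) (f : ℝ → ℝ)
    (c : ι → ℝ) (cb : β → ι → ℝ) (w : β → ℝ) : Prop :=
  ∀ (h : (ι → ℝ) → ℝ) (H : ℝ), Measurable h → (∀ x, |h x| ≤ H) →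
    ∑ b, w b * ∫ g, logMean μ (fun x => h x + f (field (cb b) g x)) ∂gaussVec ι
      ≤ ∫ g, logMean μ (fun x => h x + f (field c g x)) ∂gaussVec ι

section Hybrid

variable {ι : Type*} [Fintype ι] {β : Type*} [Fintype β] {μ : Measure (ι → ℝ)}
  [IsProbabilityMeasure μ]

/-- Guerra-type comparison for all patterns at once. -/
lemma hybrid (hf : Measurable f) (hfb : ∀ t, |f t| ≤ B) (c : ι → ℝ) (cb : β → ι → ℝ) (w : β → ℝ)
    (hw0 : ∀ b, 0 ≤ w b) (hpat : OnePattern μ f c cb w) :
    ∀ (M : ℕ) (h : (ι → ℝ) → ℝ) (H : ℝ), Measurable h → (∀ x, |h x| ≤ H) →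
      ∑ τ : Fin M → β, (∏ a, w (τ a)) * pressureW μ f (fun a => cb (τ a)) h
        ≤ pressureW μ f (fun _ : Fin M => c) h := by
  intro M
  induction M with
  | zero =>
    intro h H _ _
    simp only [Fintype.sum_unique, Finset.univ_eq_empty, Finset.prod_empty, one_mul]
    exact le_of_eq (congrArg (fun cs => pressureW μ _ cs h) (Subsingleton.elim _ _))
  | succ M ih =>
    intro h H hh hhb
    have ec : (fun _ : Fin (M + 1) => c) = Fin.cons c (fun _ : Fin M => c) := by
      funext a; refine Fin.cases ?_ (fun i => ?_) a <;> simp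
    have hm : ∀ g0 : ι → ℝ, Measurable fun x => h x + f (field c g0 x) :=
      fun g0 => by unfold field; fun_prop
    have hb : ∀ (g0 x : ι → ℝ), |h x + f (field c g0 x)| ≤ H + B :=
      fun g0 x => (abs_add_le _ _).trans (add_le_add (hhb x) (hfb _))
    -- integrability in the first pattern
    have hint : ∀ cs : Fin M → ι → ℝ, Integrable (fun g0 =>
        pressureW μ f cs (fun x => h x + f (field c g0 x)))
        (gaussVec ι) := by
      intro cs
      refine Integrable.of_bound ?_ (H + B + M * B)
        (ae_of_all _ fun g0 => ?_)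
      · unfold pressureW
        exact (StronglyMeasurable.integral_prod_right
          (f := fun g0 g => logMean μ
            (fun x => h x + f (field c g0 x) + energy f cs g x))
          (by exact (measurable_logMean_param
            (by unfold energy field; fun_prop)).stronglyMeasurable)).aestronglyMeasurable
      · refine (norm_integral_le_of_norm_le_const (C := H + B + M * B)
          (ae_of_all _ fun g => ?_)).trans (by simp)
        rw [Real.norm_eq_abs]
        exact abs_logMean_le (measurable_base_add_energy hf (hm g0) cs g)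
          (abs_base_add_energy_le hfb (hb g0) cs g)
    rw [ec, (pressureW_cons hf hfb hh hhb _ _).1]
    have step1 : ∑ τ : Fin M → β, (∏ a, w (τ a))
          * pressureW μ f (Fin.cons c (fun a => cb (τ a)) : Fin (M + 1) → ι → ℝ) h
        ≤ ∫ g0, pressureW μ f (fun _ : Fin M => c)
            (fun x => h x + f (field c g0 x)) ∂gaussVec ι := by
      calc _ = ∫ g0, ∑ τ : Fin M → β, (∏ a, w (τ a)) * pressureW μ f
              (fun a => cb (τ a)) (fun x => h x + f (field c g0 x)) ∂gaussVec ι := by
            rw [integral_finsetSum _ fun τ _ => (hint _).const_mul _]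
            simp_rw [integral_const_mul, (pressureW_cons hf hfb hh hhb _ _).1]
        _ ≤ _ := integral_mono (integrable_finsetSum _ fun τ _ => (hint _).const_mul _) (hint _)
            fun g0 => ih _ _ (hm g0) (hb g0)
    refine le_trans ?_ step1
    rw [← (Fin.consEquiv fun _ : Fin (M + 1) => β).sum_comp, Fintype.sum_prod_type,
      Finset.sum_comm]
    refine Finset.sum_le_sum fun τ _ => ?_
    have hcons : ∀ b, (fun a => cb ((Fin.cons b τ : Fin (M + 1) → β) a))
        = (Fin.cons (cb b) (fun a => cb (τ a)) : Fin (M + 1) → ι → ℝ) := fun b => by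
      funext a; refine Fin.cases ?_ (fun i => ?_) a <;> simp
    simp only [Fin.consEquiv_apply, Fin.prod_univ_succ, Fin.cons_zero, Fin.cons_succ, hcons]
    simp_rw [mul_comm (w _) (∏ a, w (τ a)), mul_assoc, ← Finset.mul_sum]
    refine mul_le_mul_of_nonneg_left ?_ (Finset.prod_nonneg fun a _ => hw0 _)
    have hin : ∀ d : ι → ℝ, Integrable (fun g : Fin M → ι → ℝ => ∫ g0, logMean μ
        (fun x => (h x + energy f (fun a => cb (τ a)) g x)
          + f (field d g0 x)) ∂gaussVec ι) (patterns ι M) := by
      intro d
      refine Integrable.of_bound ?_ (H + M * B + B)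
        (ae_of_all _ fun g => ?_)
      · exact (StronglyMeasurable.integral_prod_right
          (f := fun g g0 => logMean μ (fun x => (h x
            + energy f (fun a => cb (τ a)) g x) + f (field d g0 x)))
          (by exact (measurable_logMean_param
            (by unfold energy field; fun_prop)).stronglyMeasurable)).aestronglyMeasurable
      · refine (norm_integral_le_of_norm_le_const (C := H + M * B + B)
          (ae_of_all _ fun g0 => ?_)).trans (by simp)
        rw [Real.norm_eq_abs]
        exact abs_logMean_le (by unfold energy field; fun_prop) fun x =>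
          (abs_add_le _ _).trans (add_le_add (abs_base_add_energy_le hfb hhb _ g x) (hfb _))
    simp only [fun d => (pressureW_cons (μ := μ) hf hfb hh hhb d (fun a => cb (τ a))).2]
    calc _ = ∫ g, ∑ b, w b * ∫ g0, logMean μ (fun x =>
            (h x + energy f (fun a => cb (τ a)) g x)
              + f (field (cb b) g0 x)) ∂gaussVec ι ∂patterns ι M := by
          rw [integral_finsetSum _ fun b _ => (hin _).const_mul _]
          simp only [integral_const_mul]
      _ ≤ _ := ?_
    refine integral_mono (integrable_finsetSum _ fun b _ => (hin _).const_mul _) (hin _) fun g => ?_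
    exact hpat _ _ (measurable_base_add_energy hf hh _ g) (abs_base_add_energy_le hfb hhb _ g)

end Hybrid

section Split

variable {k n r : ℕ} {μ : Measure (Site k n r → ℝ)} [IsProbabilityMeasure μ]
  {μn : Measure (Fin n → ℝ)} [IsProbabilityMeasure μn]
  {Ω : Type*} [MeasurableSpace Ω] {P : Measure Ω} [IsProbabilityMeasure P]
  {σ : Fin k → Ω → ℝ}

/-- Patterns assigned to blocks factorise, up to the rescaling of the blocks. -/
lemma pressureW_blocks (hf : Measurable f) (hfb : ∀ t, |f t| ≤ B) (hσ1 : ∀ b ω, σ b ω = 1) (hσ : ∀ b, Measurable (σ b))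
    (hmarg : μ.map (fun x b i => x (Sum.inl (b, i)))
      = (P.prod (Measure.pi fun _ : Fin k => μn)).map (fun z b i => σ b z.1 * z.2 b i))
    {M : ℕ} (τ : Fin M → Option (Fin k)) :
    (∑ b, (press μn f (count τ (some b))
        - 2 * B * count τ (some b) * ∫ ω, min |σ b ω ^ 2 - 1| 1 ∂P))
      - count τ none * B
      ≤ pressureW μ f (fun a => blockWeight k n r (τ a)) (fun _ => 0) := by
  classical
  have hB : 0 ≤ B := le_trans (abs_nonneg _) (hfb 0)
  set S : Option (Fin k) → Finset (Fin M) := fun o => Finset.univ.filter fun a => τ a = o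
  -- energy of block `b` at scale `s`
  let Eb : (Fin M → Site k n r → ℝ) → Fin k → ℝ → (Fin n → ℝ) → ℝ := fun g b s y =>
    ∑ a ∈ S (some b), f (∑ i, g a (Sum.inl (b, i)) * (s * unit (Fin n) i * y i))
  have hEb : ∀ g b s y, |Eb g b s y| ≤ M * B := fun g b s y => by
    refine (Finset.abs_sum_le_sum_abs _ _).trans ((Finset.sum_le_sum fun a _ => hfb _).trans ?_)
    rw [Finset.sum_const, nsmul_eq_mul]
    refine mul_le_mul_of_nonneg_right ?_ hB
    exact_mod_cast (Finset.card_filter_le _ _).trans (by simp)
  -- pointwise in the patterns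
  have point : ∀ g : Fin M → Site k n r → ℝ,
      (∫ ω, ∑ b, logMean μn (Eb g b (σ b ω)) ∂P) - count τ none * B
        ≤ logMean μ (fun x => 0 + energy f (fun a => blockWeight k n r (τ a)) g x) := by
    intro g
    let red : (Fin k → Fin n → ℝ) → ℝ := fun y => ∑ b, Eb g b 1 (y b)
    have hred : Measurable red := by simp only [red, Eb]; fun_prop
    have hredb : ∀ y, |red y| ≤ k * (M * B) := fun y => by
      refine (Finset.abs_sum_le_sum_abs _ _).trans ((Finset.sum_le_sum fun b _ => hEb _ _ _ _).trans ?_)
      simp
    have hle : ∀ x, red (fun b i => x (Sum.inl (b, i)))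
        ≤ (0 + energy f (fun a => blockWeight k n r (τ a)) g x) + count τ none * B := by
      intro x
      have hsome : ∀ b a, a ∈ S (some b) → f (field (blockWeight k n r (τ a)) (g a) x)
          = f (∑ i, g a (Sum.inl (b, i)) * (1 * unit (Fin n) i * x (Sum.inl (b, i)))) := by
        intro b a ha
        rw [(Finset.mem_filter.1 ha).2]
        congr 1
        simp [field, blockWeight, unit, Fintype.sum_sum_type, Fintype.sum_prod_type]
        rw [Finset.sum_comm]
        simp
      rw [zero_add]
      simp only [energy, red, Eb]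
      rw [← Finset.sum_fiberwise (Finset.univ : Finset (Fin M)) τ
        (fun a => f (field (blockWeight k n r (τ a)) (g a) x)), Fintype.sum_option,
        Finset.sum_congr rfl fun b _ => Finset.sum_congr rfl fun a ha => (hsome b a ha).symm]
      have h0 : -(count τ none * B) ≤ ∑ a ∈ S none, f (field (blockWeight k n r (τ a)) (g a) x) := by
        have := Finset.sum_le_sum (s := S none) (fun a _ => (abs_le.1 (hfb
          (field (blockWeight k n r (τ a)) (g a) x))).1)
        simpa [count, S] using this
      linarith
    have hm : Measurable fun x => 0 + energy f (fun a => blockWeight k n r (τ a)) g x :=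
      measurable_base_add_energy hf measurable_const _ g
    have hb : ∀ x, |0 + energy f (fun a => blockWeight k n r (τ a)) g x| ≤ 0 + M * B :=
      abs_base_add_energy_le (h := fun _ : Site k n r → ℝ => (0:ℝ)) hfb (by simp) _ g
    have h1 := logMean_mono_add (μ := μ) (h := fun x => red (fun b i => x (Sum.inl (b, i))))
      (hred.comp (by fun_prop)) (fun x => hredb _) hm hb hle
    have hφ : Measurable fun (z : Ω × (Fin k → Fin n → ℝ)) b i => σ b z.1 * z.2 b i :=
      measurable_pi_lambda _ fun b => measurable_pi_lambda _ fun i =>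
        ((hσ b).comp measurable_fst).mul (by fun_prop)
    have h2 : logMean μ (fun x => red (fun b i => x (Sum.inl (b, i))))
        = Real.log (∫ ω, ∏ b, ∫ y, Real.exp (Eb g b (σ b ω) y) ∂μn ∂P) := by
      unfold logMean
      rw [← integral_map (φ := fun (x : Site k n r → ℝ) b i => x (Sum.inl (b, i)))
        (f := fun y => Real.exp (red y))
        (measurable_pi_lambda _ fun b => measurable_pi_lambda _ fun i =>
          measurable_pi_apply _).aemeasurable
        (Real.measurable_exp.comp hred).aestronglyMeasurable, hmarg,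
        integral_map hφ.aemeasurable (f := fun y => Real.exp (red y))
          (Real.measurable_exp.comp hred).aestronglyMeasurable,
        integral_prod _ ?_]
      · congr 1
        refine integral_congr_ae (ae_of_all _ fun ω => ?_)
        dsimp only
        rw [← integral_fintype_prod_eq_prod (f := fun b y => Real.exp (Eb g b (σ b ω) y))]
        refine integral_congr_ae (ae_of_all _ fun Y => ?_)
        simp only [red, Eb, Real.exp_sum]
        refine Finset.prod_congr rfl fun b _ => Finset.prod_congr rfl fun a _ => ?_
        congr 2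
        exact Finset.sum_congr rfl fun i _ => by ring
      · exact integrable_exp_bdd (B := k * (M * B)) (hred.comp hφ) fun z => hredb _
    have hFm : Measurable fun ω => ∑ b, logMean μn (Eb g b (σ b ω)) :=
      Finset.measurable_sum _ fun b _ => measurable_logMean_param
        (by simp only [Eb]; fun_prop)
    have hFb : ∀ ω, |∑ b, logMean μn (Eb g b (σ b ω))| ≤ k * (M * B) := fun ω => by
      refine (Finset.abs_sum_le_sum_abs _ _).trans ((Finset.sum_le_sum fun b _ =>
        abs_logMean_le (by simp only [Eb]; fun_prop) (hEb _ _ _)).trans ?_)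
      simp
    have h3 : logMean P (fun ω => ∑ b, logMean μn (Eb g b (σ b ω)))
        = Real.log (∫ ω, ∏ b, ∫ y, Real.exp (Eb g b (σ b ω) y) ∂μn ∂P) := by
      unfold logMean
      congr 1
      refine integral_congr_ae (ae_of_all _ fun ω => ?_)
      dsimp only
      rw [Real.exp_sum]
      refine Finset.prod_congr rfl fun b _ => Real.exp_log ?_
      exact integral_exp_pos' (by simp only [Eb]; fun_prop) (hEb _ _ _)
    have h4 := integral_le_logMean (μ := P) hFm hFb
    linarith [h1, h2, h3, h4]
  -- average over the patterns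
  have avg : ∀ b s, ∫ g, logMean μn (Eb g b s) ∂patterns (Site k n r) M
      = pressureW μn f (fun (_ : Fin (count τ (some b))) j => s * unit (Fin n) j) (fun _ => 0) := by
    intro b s
    let q : Fin (count τ (some b)) → Fin M :=
      fun e => ((S (some b)).equivFin.symm e : Fin M)
    have hq : Function.Injective q :=
      Subtype.val_injective.comp (S (some b)).equivFin.symm.injective
    have hrow : ((Measure.pi fun _ : Site k n r => gaussianReal 0 1)).map
        (fun z i => z (Sum.inl (b, i))) = gaussVec (Fin n) :=
      map_comp_injective _ (q := fun i => Sum.inl (b, i))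
        fun i j h => by simpa using h
    have hpi : (patterns (Site k n r) M).map (fun g e i => g (q e) (Sum.inl (b, i)))
        = patterns (Fin n) (count τ (some b)) := by
      have e1 : (patterns (Site k n r) M).map (fun g e => g (q e))
          = Measure.pi fun _ : Fin (count τ (some b)) => gaussVec (Site k n r) :=
        map_comp_injective _ hq
      rw [show (fun (g : Fin M → Site k n r → ℝ) e i => g (q e) (Sum.inl (b, i)))
          = (fun (h : Fin (count τ (some b)) → Site k n r → ℝ) e i => h e (Sum.inl (b, i)))
            ∘ (fun g e => g (q e)) from rfl, ← Measure.map_map (by fun_prop) (by fun_prop), e1]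
      have := Measure.pi_map_pi (μ := fun _ : Fin (count τ (some b)) => gaussVec (Site k n r))
        (f := fun _ (z : Site k n r → ℝ) i => z (Sum.inl (b, i))) (fun _ => (measurable_pi_lambda _ fun i => measurable_pi_apply _).aemeasurable)
      simp only [gaussVec] at this hrow ⊢
      rw [this]
      simp [patterns, gaussVec, hrow]
    have hmq : Measurable fun (g : Fin M → Site k n r → ℝ) (e : Fin (count τ (some b))) (i : Fin n) =>
        g (q e) (Sum.inl (b, i)) := measurable_pi_lambda _ fun e => measurable_pi_lambda _ fun i =>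
      (measurable_pi_apply (Sum.inl (b, i) : Site k n r)).comp (measurable_pi_apply (q e))
    rw [pressureW, ← hpi, integral_map hmq.aemeasurable
      ((measurable_logMean_param (by unfold energy field; fun_prop)).aestronglyMeasurable)]
    refine integral_congr_ae (ae_of_all _ fun g => ?_)
    dsimp only
    congr 1
    funext y
    rw [zero_add]
    simp only [Eb, energy, field, q]
    rw [← Finset.sum_coe_sort (S (some b)), ← (S (some b)).equivFin.symm.sum_comp]
    rfl
  have hint : Integrable (fun z : (Fin M → Site k n r → ℝ) × Ω =>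
      ∑ b, logMean μn (Eb z.1 b (σ b z.2))) ((patterns (Site k n r) M).prod P) := by
    refine integrable_finsetSum _ fun b _ => Integrable.of_bound ?_ (M * B)
      (ae_of_all _ fun z => (Real.norm_eq_abs _).trans_le
        (abs_logMean_le (by simp only [Eb]; fun_prop) (hEb _ _ _)))
    exact (measurable_logMean_param (μ := μn)
      (F := fun (z : (Fin M → Site k n r → ℝ) × Ω) y => Eb z.1 b (σ b z.2) y)
      (by simp only [Eb]; fun_prop)).aestronglyMeasurable
  have hmean : (∫ g, ∫ ω, ∑ b, logMean μn (Eb g b (σ b ω)) ∂P ∂patterns (Site k n r) M)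
      = ∫ ω, ∑ b, pressureW μn f (fun (_ : Fin (count τ (some b))) j => σ b ω * unit (Fin n) j)
          (fun _ => 0) ∂P := by
    rw [integral_integral_swap hint]
    refine integral_congr_ae (ae_of_all _ fun ω => ?_)
    dsimp only
    rw [integral_finsetSum _ fun b _ => Integrable.of_bound (measurable_logMean_param
      (by simp only [Eb]; fun_prop)).aestronglyMeasurable (M * B)
      (ae_of_all _ fun g => (Real.norm_eq_abs _).trans_le
        (abs_logMean_le (by simp only [Eb]; fun_prop) (hEb _ _ _)))]
    simp only [avg]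
  have hscale : ∀ ω b, press μn f (count τ (some b))
      - 2 * B * count τ (some b) * min |σ b ω ^ 2 - 1| 1
      ≤ pressureW μn f (fun (_ : Fin (count τ (some b))) j => σ b ω * unit (Fin n) j)
          (fun _ => 0) := by
    intro ω b
    simp only [hσ1, one_mul]
    have : 0 ≤ 2 * B * (count τ (some b) : ℝ) * min |(1:ℝ) ^ 2 - 1| 1 :=
      mul_nonneg (by positivity) (le_min (abs_nonneg _) zero_le_one)
    simp only [press] at *
    linarith
  have hPint : ∀ b, Integrable (fun ω => min |σ b ω ^ 2 - 1| 1) P := fun b =>
    Integrable.of_bound (by fun_prop) 1 (ae_of_all _ fun ω => by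
      rw [Real.norm_eq_abs, abs_of_nonneg (le_min (abs_nonneg _) zero_le_one)]
      exact min_le_right _ _)
  have hGint : Integrable (fun g => logMean μ (fun x => 0 + energy f
      (fun a => blockWeight k n r (τ a)) g x)) (patterns (Site k n r) M) :=
    integrable_logMean_energy (h := fun _ => 0) (H := 0) hf hfb measurable_const (by simp) _
  calc _ ≤ (∫ ω, ∑ b, pressureW μn f (fun (_ : Fin (count τ (some b))) j =>
          σ b ω * unit (Fin n) j) (fun _ => 0) ∂P) - count τ none * B := by
        refine sub_le_sub_right ?_ _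
        have hsum : Integrable (fun ω => ∑ b, (press μn f (count τ (some b))
            - 2 * B * count τ (some b) * min |σ b ω ^ 2 - 1| 1)) P :=
          integrable_finsetSum _ fun b _ => (integrable_const _).sub ((hPint b).const_mul _)
        refine le_trans (le_of_eq ?_) (integral_mono hsum ?_ fun ω => Finset.sum_le_sum
          fun b _ => hscale ω b)
        · have hsI : ∀ b, Integrable (fun ω => press μn f (count τ (some b))
              - 2 * B * count τ (some b) * min |σ b ω ^ 2 - 1| 1) P :=
            fun b => (integrable_const _).sub ((hPint b).const_mul _)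
          rw [integral_finsetSum _ fun b _ => hsI b]
          refine Finset.sum_congr rfl fun b _ => ?_
          rw [integral_sub (integrable_const _) ((hPint b).const_mul _), integral_const_mul]
          simp
        · have := hint.integral_prod_right
          refine this.congr (ae_of_all _ fun ω => ?_)
          dsimp only
          rw [integral_finsetSum _ fun b _ => Integrable.of_bound (measurable_logMean_param
            (by simp only [Eb]; fun_prop)).aestronglyMeasurable (M * B)
            (ae_of_all _ fun g => (Real.norm_eq_abs _).trans_le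
              (abs_logMean_le (by simp only [Eb]; fun_prop) (hEb _ _ _)))]
          simp only [avg]
    _ = ∫ g, ((∫ ω, ∑ b, logMean μn (Eb g b (σ b ω)) ∂P) - count τ none * B)
          ∂patterns (Site k n r) M := by
        rw [integral_sub hint.integral_prod_left (integrable_const _), hmean]
        simp
    _ ≤ _ := integral_mono (hint.integral_prod_left.sub (integrable_const _)) hGint point

/-- The lower bound for the split system. -/
lemma press_split (hf : Measurable f) (hfb : ∀ t, |f t| ≤ B)
    (hpat : OnePattern μ f (unit (Site k n r)) (blockWeight k n r) (blockProb k n r))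
    (hσ1 : ∀ b ω, σ b ω = 1) (hn : 0 < n) (hσ : ∀ b, Measurable (σ b))
    (hmarg : μ.map (fun x b i => x (Sum.inl (b, i)))
      = (P.prod (Measure.pi fun _ : Fin k => μn)).map (fun z b i => σ b z.1 * z.2 b i))
    {α δ : ℝ} (hα : 0 < α) (hδ : ∀ b, ∫ ω, min |σ b ω ^ 2 - 1| 1 ∂P ≤ δ / Real.sqrt n) :
    k * (press μn f ⌊α * n⌋₊
        - B * ((α + 1) / 2 + 1 + 2 * α * δ) * Real.sqrt n)
      - B * (α * r)
      ≤ press μ f ⌊α * ((k * n + r : ℕ) : ℝ)⌋₊ := by
  classical
  rcases Nat.eq_zero_or_pos (k * n + r) with h0 | h0
  · obtain ⟨h1, rfl⟩ := Nat.add_eq_zero_iff.1 h0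
    obtain rfl : k = 0 := by rcases Nat.mul_eq_zero.1 h1 with h | h <;> omega
    simp only [Nat.zero_mul, Nat.add_zero, Nat.cast_zero, mul_zero, zero_mul, sub_zero,
      Nat.floor_zero]
    exact le_of_eq (by simp [press, pressureW, logMean, energy])
  set N : ℝ := ((k * n + r : ℕ) : ℝ) with hN
  set M := ⌊α * N⌋₊
  set m := ⌊α * (n : ℝ)⌋₊
  have hB : 0 ≤ B := le_trans (abs_nonneg _) (hfb 0)
  have hN0 : 0 < N := by rw [hN]; exact_mod_cast h0
  have hn' : (0 : ℝ) < n := by exact_mod_cast hn
  have hs : 0 < Real.sqrt n := Real.sqrt_pos.2 hn'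
  have hs1 : 1 ≤ Real.sqrt n := Real.one_le_sqrt.2 (by exact_mod_cast hn)
  have hw := sum_blockProb (k := k) (n := n) (r := r) h0
  have key := hybrid (μ := μ) hf hfb (unit (Site k n r)) (blockWeight k n r) (blockProb k n r)
    (blockProb_nonneg k n r) hpat M (fun _ => 0) 0 measurable_const (by simp)
  set W : (Fin M → Option (Fin k)) → ℝ := fun τ => ∏ a, blockProb k n r (τ a)
  have hW0 : ∀ τ, 0 ≤ W τ := fun τ => Finset.prod_nonneg fun a _ => blockProb_nonneg k n r _
  have hM1 : (M : ℝ) ≤ α * N := Nat.floor_le (by positivity)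
  have hM2 : α * N - 1 ≤ M := by linarith [Nat.lt_floor_add_one (α * N)]
  have hm1 : (m : ℝ) ≤ α * n := Nat.floor_le (by positivity)
  have hm2 : α * n - 1 ≤ m := by linarith [Nat.lt_floor_add_one (α * (n : ℝ))]
  set p : ℝ := n / N
  have hp1 : (M : ℝ) * p ≤ α * n := by
    calc (M : ℝ) * p ≤ α * N * p := mul_le_mul_of_nonneg_right hM1 (by positivity)
      _ = α * n := by simp only [p]; field_simp
  have hblock : ∀ b : Fin k,
      press μn f m - B * ((α + 1) / 2 + 1 + 2 * α * δ) * Real.sqrt n
      ≤ ∑ τ, W τ * (press μn f (count τ (some b))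
          - 2 * B * count τ (some b) * ∫ ω, min |σ b ω ^ 2 - 1| 1 ∂P) := by
    intro b
    obtain ⟨i0, i1, i2⟩ := assign_moments (blockProb k n r) hw (some b) M
    have hp : blockProb k n r (some b) = p := rfl
    rw [hp] at i1 i2
    have hple : p ≤ 1 := by
      rw [← hp, ← hw]
      exact Finset.single_le_sum (fun b _ => blockProb_nonneg k n r b) (Finset.mem_univ _)
    have hdiff : |(M : ℝ) * p - m| ≤ 1 := by
      have : α * n - p ≤ M * p := by
        calc α * n - p = (α * N - 1) * p := by simp only [p]; field_simp
          _ ≤ M * p := mul_le_mul_of_nonneg_right hM2 (by positivity)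
      rw [abs_le]; constructor <;> linarith
    set D := ∫ ω, min |σ b ω ^ 2 - 1| 1 ∂P
    have hD0 : 0 ≤ D := integral_nonneg fun ω => le_min (abs_nonneg _) zero_le_one
    have hterm : ∀ τ : Fin M → Option (Fin k),
        press μn f m - B * ((((count τ (some b) : ℝ) - M * p) ^ 2 / Real.sqrt n + Real.sqrt n) / 2 + 1)
          - 2 * B * count τ (some b) * D
        ≤ press μn f (count τ (some b)) - 2 * B * count τ (some b) * D := by
      intro τ
      refine sub_le_sub_right (le_trans ?_ (press_count hf hfb _ m)) _
      set x := (count τ (some b) : ℝ) - M * p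
      have h1 : |(count τ (some b) : ℝ) - m| ≤ |x| + 1 := by
        refine le_trans ?_ (add_le_add le_rfl hdiff)
        exact abs_sub_le _ _ _
      have h2 : |x| ≤ (x ^ 2 / Real.sqrt n + Real.sqrt n) / 2 := abs_le_avg hs x
      have := mul_le_mul_of_nonneg_left (h1.trans (add_le_add h2 le_rfl)) hB
      linarith
    refine le_trans ?_ (Finset.sum_le_sum fun τ _ => mul_le_mul_of_nonneg_left (hterm τ) (hW0 τ))
    have e : ∀ τ : Fin M → Option (Fin k), W τ * (press μn f m - B *
        ((((count τ (some b) : ℝ) - M * p) ^ 2 / Real.sqrt n + Real.sqrt n) / 2 + 1)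
          - 2 * B * count τ (some b) * D)
        = W τ * (press μn f m - B * (Real.sqrt n / 2 + 1))
          - B / (2 * Real.sqrt n) * (W τ * ((count τ (some b) : ℝ) - M * p) ^ 2)
          - 2 * B * D * (W τ * count τ (some b)) := fun τ => by ring
    simp only [W] at e ⊢
    simp only [e, Finset.sum_sub_distrib, ← Finset.sum_mul, ← Finset.mul_sum, i0, i1, i2, one_mul]
    have hv : (M : ℝ) * (p * (1 - p)) ≤ α * n := by
      nlinarith [mul_nonneg (Nat.cast_nonneg M : (0:ℝ) ≤ M) (mul_self_nonneg p)]
    have hD : 2 * B * D * (M * p) ≤ 2 * B * (δ / Real.sqrt n) * (α * n) := by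
      have hd := (hδ b).trans' le_rfl
      exact mul_le_mul (mul_le_mul_of_nonneg_left hd (by positivity)) hp1 (by positivity)
        (by have := hD0.trans hd; positivity)
    have hv' : B / (2 * Real.sqrt n) * (M * (p * (1 - p))) ≤ B / (2 * Real.sqrt n) * (α * n) :=
      mul_le_mul_of_nonneg_left hv (by positivity)
    have hsq : Real.sqrt n * Real.sqrt n = n := Real.mul_self_sqrt hn'.le
    have e1 : B / (2 * Real.sqrt n) * (α * n) = B * α / 2 * Real.sqrt n := by
      field_simp; rw [Real.sq_sqrt hn'.le]
    have e2 : 2 * B * (δ / Real.sqrt n) * (α * n) = 2 * B * α * δ * Real.sqrt n := by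
      field_simp; rw [Real.sq_sqrt hn'.le]
    nlinarith [mul_le_mul_of_nonneg_left hs1 hB]
  have hnone : (∑ τ, W τ * (count τ none * B)) ≤ B * (α * r) := by
    obtain ⟨-, i1, -⟩ := assign_moments (blockProb k n r) hw none M
    simp only [W, ← mul_assoc, ← Finset.sum_mul, i1]
    calc (M : ℝ) * blockProb k n r none * B ≤ α * N * (r / N) * B :=
          mul_le_mul_of_nonneg_right
            (mul_le_mul_of_nonneg_right hM1 (blockProb_nonneg k n r none)) hB
      _ = B * α * r := by field_simp
  refine le_trans ?_ key
  refine le_trans ?_ (Finset.sum_le_sum fun τ _ =>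
    mul_le_mul_of_nonneg_left (pressureW_blocks hf hfb hσ1 hσ hmarg τ) (hW0 τ))
  have hsum := Finset.sum_le_sum (s := (Finset.univ : Finset (Fin k))) fun b _ => hblock b
  rw [Finset.sum_comm] at hsum
  simp only [Finset.sum_const, Finset.card_univ, Fintype.card_fin, nsmul_eq_mul,
    ← Finset.mul_sum] at hsum
  have hsplit : ∀ τ, W τ * ((∑ b, (press μn f (count τ (some b))
      - 2 * B * count τ (some b) * ∫ ω, min |σ b ω ^ 2 - 1| 1 ∂P)) - count τ none * B)
      = W τ * (∑ b, (press μn f (count τ (some b))
      - 2 * B * count τ (some b) * ∫ ω, min |σ b ω ^ 2 - 1| 1 ∂P)) - W τ * (count τ none * B) :=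
    fun τ => by ring
  rw [show (∑ τ, W τ * ((∑ b, (press μn f (count τ (some b))
      - 2 * B * count τ (some b) * ∫ ω, min |σ b ω ^ 2 - 1| 1 ∂P))
      - count τ none * B)) = _ from Finset.sum_congr rfl fun τ _ => hsplit τ,
    Finset.sum_sub_distrib]
  linarith

end Split

/-- The abstract limit theorem for a family of configuration measures. -/
lemma exists_limit {μfam : ∀ N, Measure (Fin N → ℝ)}
    (hprob : ∀ N, 1 ≤ N → IsProbabilityMeasure (μfam N)) (hf : Measurable f)
    (hfb : ∀ t, |f t| ≤ B) {α δ : ℝ} (hα : 0 < α) (hδ : 0 ≤ δ)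
    (hsplit : ∀ n k r : ℕ, 1 ≤ n → 1 ≤ k * n + r →
      k * (press (μfam n) f ⌊α * (n : ℝ)⌋₊
          - B * ((α + 1) / 2 + 1 + 2 * α * δ) * Real.sqrt n)
        - B * (α * r)
        ≤ press (μfam (k * n + r)) f ⌊α * ((k * n + r : ℕ) : ℝ)⌋₊) :
    ∃ L, Tendsto (fun N => pressure α f N (μfam N)) atTop (𝓝 L) := by
  have hB : 0 ≤ B := le_trans (abs_nonneg _) (hfb 0)
  set C := B * ((α + 1) / 2 + 1 + 2 * α * δ)
  have hC : 0 ≤ C := by positivity
  set a : ℕ → ℝ := fun N => pressure α f N (μfam N) with ha
  have hbound : ∀ N, |a N| ≤ B * α := by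
    intro N
    rcases Nat.eq_zero_or_pos N with rfl | hN
    · simp only [ha, pressure, Nat.cast_zero, div_zero, abs_zero]; positivity
    · have := hprob N hN
      have hN' : (0 : ℝ) < N := by exact_mod_cast hN
      simp only [ha, pressure_eq_press, abs_div, abs_of_pos hN']
      rw [div_le_iff₀ hN']
      refine (abs_press_le hf hfb _).trans ?_
      calc (⌊α * (N : ℝ)⌋₊ : ℝ) * B ≤ α * N * B :=
            mul_le_mul_of_nonneg_right (Nat.floor_le (by positivity)) hB
        _ = B * α * N := by ring
  refine tendsto_of_approx_superadditive (A := B * α) (C := C) (D := 2 * (B * α) + C) hC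
    (by positivity) hbound fun n N hn hN => ?_
  have hn' : (0 : ℝ) < n := by exact_mod_cast hn
  have hN' : (0 : ℝ) < N := by exact_mod_cast hN
  set k := N / n
  set r := N % n
  have hNeq : k * n + r = N := Nat.div_add_mod' N n
  have hr : (r : ℝ) ≤ n := by exact_mod_cast (Nat.mod_lt N (by omega)).le
  have h := hsplit n k r hn (by omega)
  rw [hNeq] at h
  have hkn : (k : ℝ) * n = N - r := by
    rw [eq_sub_iff_add_eq]; exact_mod_cast hNeq
  have e1 : press (μfam n) f ⌊α * (n : ℝ)⌋₊ = a n * n := by
    simp only [ha, pressure_eq_press]; field_simp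
  have e2 : press (μfam N) f ⌊α * (N : ℝ)⌋₊ = a N * N := by
    simp only [ha, pressure_eq_press]; field_simp
  rw [e1, e2] at h
  have hsq : 0 < Real.sqrt n := Real.sqrt_pos.2 hn'
  have hsq1 : 1 ≤ Real.sqrt n := Real.one_le_sqrt.2 (by exact_mod_cast hn)
  have e3 : C / Real.sqrt n * n = C * Real.sqrt n := by
    field_simp; rw [Real.sq_sqrt hn'.le]
  have main : (a n - C / Real.sqrt n) * (N - r) - B * α * r ≤ a N * N := by
    calc (a n - C / Real.sqrt n) * (N - r) - B * α * r
        = k * (a n * n - C * Real.sqrt n) - B * (α * r) := by rw [← hkn, ← e3]; ring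
      _ ≤ a N * N := h
  have hCn : 0 ≤ C / Real.sqrt n := div_nonneg hC hsq.le
  have hCle : C / Real.sqrt n ≤ C := div_le_self hC hsq1
  have hra : a n * r ≤ B * α * r :=
    mul_le_mul_of_nonneg_right (abs_le.1 (hbound n)).2 (Nat.cast_nonneg r)
  have hrr : B * α * r ≤ B * α * n := mul_le_mul_of_nonneg_left hr (by positivity)
  have : (a n - C / Real.sqrt n) * N - (2 * (B * α) + C) * n ≤ a N * N := by
    nlinarith [mul_nonneg hCn (Nat.cast_nonneg r : (0:ℝ) ≤ r), mul_nonneg hC hn'.le]
  rw [← sub_nonneg] at this ⊢
  have e4 : a N - (a n - C / Real.sqrt n - (2 * (B * α) + C) * n / N)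
      = (a N * N - ((a n - C / Real.sqrt n) * N - (2 * (B * α) + C) * n)) / N := by
    field_simp
  rw [e4]
  positivity

end Vale.Agent.P157.Small
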