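import Vale.Agent.P157.Small.Pattern
import Vale.Agent.P157.Small.Split

/-!
The limit of the pressure on the cube for weakly coupled even potentials of either sign.
-/

open MeasureTheory ProbabilityTheory Filter Topology
open scoped BigOperators

namespace Vale.Agent.P157.Small

open Vale.Agent.P157

/-- The potential `c₀ + log (1 + u)`. -/
noncomputable def Data.pot (D : Data) (c₀ : ℝ) (t : ℝ) : ℝ := c₀ + Real.log (1 + D.u t)

@[fun_prop]
lemma Data.measurable_pot (D : Data) (c₀ : ℝ) : Measurable (D.pot c₀) := by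
  unfold Data.pot; fun_prop

lemma Data.abs_pot_le (D : Data) (c₀ t : ℝ) : |D.pot c₀ t| ≤ |c₀| + 1 := by
  refine (abs_add_le _ _).trans (add_le_add le_rfl ?_)
  have hu := abs_le.1 (D.abs_u_le t)
  have := D.m1
  have h0 : 0 < 1 + D.u t := by linarith
  rw [abs_le]
  constructor
  · have := Real.one_sub_inv_le_log_of_pos h0
    have : (1 + D.u t)⁻¹ ≤ 2 := by rw [inv_le_comm₀ h0 two_pos]; linarith
    linarith
  · linarith [Real.log_le_sub_one_of_pos h0]

section Pattern

variable {ι : Type*} [Fintype ι] {β : Type*} [Fintype β] {μ : Measure (ι → ℝ)}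
  [IsProbabilityMeasure μ] (D : Data) (c₀ : ℝ)

lemma logMean_pot {h : (ι → ℝ) → ℝ} {H : ℝ} (hh : Measurable h) (hhb : ∀ x, |h x| ≤ H) (c g : ι → ℝ) :
    logMean μ (fun x => h x + D.pot c₀ (field c g x))
      = logMean μ h + c₀ + Real.log (1 + D.gibbs (μ.tilted h) c g) := by
  have hpos := integral_exp_pos' (μ := μ) hh hhb
  have : IsProbabilityMeasure (μ.tilted h) :=
    isProbabilityMeasure_tilted (integrable_exp_bdd hh hhb)
  have hu : Measurable fun x => D.u (field c g x) := D.measurable_u.comp (by unfold field; fun_prop)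
  have hi : Integrable (fun x => D.u (field c g x)) (μ.tilted h) :=
    Integrable.of_bound hu.aestronglyMeasurable D.m
      (ae_of_all _ fun x => (Real.norm_eq_abs _).trans_le (D.abs_u_le _))
  have hm := D.m1
  have h1 : 1 + D.gibbs (μ.tilted h) c g = ∫ x, (1 + D.u (field c g x)) ∂μ.tilted h := by
    rw [integral_add (integrable_const _) hi, integral_const, probReal_univ, one_smul, Data.gibbs]
  have hlt : 0 < 1 + D.gibbs (μ.tilted h) c g := by
    linarith [(abs_le.1 (D.abs_gibbs_le (μ.tilted h) c g)).1]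
  have key : ∫ x, Real.exp (h x + D.pot c₀ (field c g x)) ∂μ
      = (∫ x, Real.exp (h x) ∂μ) * Real.exp c₀ * (1 + D.gibbs (μ.tilted h) c g) := by
    rw [h1, integral_tilted, ← integral_const_mul]
    refine integral_congr_ae (ae_of_all _ fun x => ?_)
    have : 0 < 1 + D.u (field c g x) := by linarith [(abs_le.1 (D.abs_u_le (field c g x))).1]
    simp only [Data.pot, Real.exp_add, Real.exp_log this, smul_eq_mul]
    field_simp
  unfold logMean
  rw [key, Real.log_mul (mul_pos hpos (Real.exp_pos _)).ne' hlt.ne',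
    Real.log_mul hpos.ne' (Real.exp_ne_zero _), Real.log_exp]

/-- A weakly coupled transform satisfies the one-pattern inequality. -/
lemma onePattern (hD : 108 * D.m * D.s2 ^ 2 ≤ D.a2 ^ 2) (c : ι → ℝ) (cb : β → ι → ℝ) (w : β → ℝ)
    (hw0 : ∀ b, 0 ≤ w b) (hw1 : ∑ b, w b = 1) (hc : ∀ j, c j ^ 2 = ∑ b, w b * cb b j ^ 2)
    (hv : ∀ b, w b ≠ 0 → Unitary μ (cb b)) : OnePattern μ (D.pot c₀) c cb w := by
  intro h H hh hhb
  classical
  have : IsProbabilityMeasure (μ.tilted h) :=
    isProbabilityMeasure_tilted (integrable_exp_bdd hh hhb)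
  have hac := (tilted_absolutelyContinuous μ h).ae_le
  -- blocks of weight zero are replaced by the joint weights
  set cb' : β → ι → ℝ := fun b => if w b = 0 then c else cb b
  have hv' : ∀ b, w b ≠ 0 → Unitary (μ.tilted h) (cb b) := fun b hb => hac (hv b hb)
  have hcu : Unitary (μ.tilted h) c := by
    have hall : ∀ᵐ x ∂μ.tilted h, ∀ b, w b ≠ 0 → ov (cb b) x x = 1 := by
      rw [ae_all_iff]
      intro b
      by_cases hb : w b = 0
      · exact ae_of_all _ fun x h' => absurd hb h'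
      · exact (hv' b hb).mono fun x hx _ => hx
    filter_upwards [hall] with x hx
    rw [ov_avg c cb w hc]
    refine Eq.trans (Finset.sum_congr rfl fun b _ => ?_) hw1
    by_cases hb : w b = 0
    · simp [hb]
    · simp [hx b hb]
  have key := log_one_add_concave D (μ.tilted h) hD hw0 hw1 (c := c) (cb := cb')
    (fun j => by
      rw [hc j]
      exact Finset.sum_congr rfl fun b _ => by by_cases hb : w b = 0 <;> simp [cb', hb])
    (fun b => by
      by_cases hb : w b = 0
      · simpa [cb', hb] using hcu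
      · simpa [cb', hb] using hv' b hb)
  have e : ∀ d : ι → ℝ, ∫ g, logMean μ (fun x => h x + D.pot c₀ (field d g x)) ∂gaussVec ι
      = logMean μ h + c₀ + ∫ g, Real.log (1 + D.gibbs (μ.tilted h) d g) ∂gaussVec ι := by
    intro d
    simp_rw [logMean_pot D c₀ hh hhb]
    rw [integral_add (integrable_const _), integral_const, probReal_univ, one_smul]
    refine Integrable.of_bound (Real.measurable_log.comp
      (measurable_const.add (D.measurable_gibbs _ d))).aestronglyMeasurable 1 (ae_of_all _ fun g => ?_)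
    have hg := abs_le.1 (D.abs_gibbs_le (μ.tilted h) d g)
    have := D.m1
    have h0 : 0 < 1 + D.gibbs (μ.tilted h) d g := by linarith
    have : (1 + D.gibbs (μ.tilted h) d g)⁻¹ ≤ 2 := by rw [inv_le_comm₀ h0 two_pos]; linarith
    simp only [Real.norm_eq_abs]
    rw [abs_le]
    constructor <;> linarith [Real.one_sub_inv_le_log_of_pos h0, Real.log_le_sub_one_of_pos h0]
  simp only [e, mul_add, Finset.sum_add_distrib, ← Finset.sum_mul, hw1, one_mul]
  refine add_le_add le_rfl (le_trans (le_of_eq ?_) key)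
  exact Finset.sum_congr rfl fun b _ => by by_cases hb : w b = 0 <;> simp [cb', hb]

end Pattern

lemma ae_sq_one (ι : Type*) [Fintype ι] : ∀ᵐ x ∂isingOn ι, ∀ i, x i ^ 2 = 1 := by
  rw [ae_all_iff]
  intro i
  refine (Measure.quasiMeasurePreserving_eval (μ := fun _ : ι => coin) (i := i)).ae
    (p := fun y : ℝ => y ^ 2 = 1) ?_
  rw [coin, ae_iff]
  simp

/-- The limit on the cube. -/
theorem limit_of_data (D : Data) (hD : 108 * D.m * D.s2 ^ 2 ≤ D.a2 ^ 2) (c₀ : ℝ) {α : ℝ}
    (hα : 0 < α) :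
    ∃ L, Tendsto (fun N => pressure α (D.pot c₀) N (isingMeasure N)) atTop (𝓝 L) := by
  refine exists_limit (fun N _ => by rw [isingMeasure_eq]; infer_instance) (D.measurable_pot c₀)
    (D.abs_pot_le c₀) hα le_rfl ?_
  intro n k r hn hN
  have hpat : OnePattern (isingOn (Site k n r)) (D.pot c₀) (unit (Site k n r))
      (blockWeight k n r) (blockProb k n r) := by
    refine onePattern D c₀ hD _ _ _ (blockProb_nonneg k n r) (sum_blockProb hN)
      (unit_sq_eq (by omega)) fun b hb => ?_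
    filter_upwards [ae_sq_one (Site k n r)] with x hx
    have hx' : ∀ i, x i * x i = 1 := fun i => by rw [← sq]; exact hx i
    rcases b with _ | b
    · have hr : (r : ℝ) ≠ 0 := fun h0 => hb (by simp [blockProb, h0])
      simp [ov, blockWeight, hx', Fintype.sum_sum_type, Real.sq_sqrt (Nat.cast_nonneg r), hr]
    · have hn' : (n : ℝ) ≠ 0 := by exact_mod_cast (show n ≠ 0 by omega)
      simp [ov, blockWeight, hx', Fintype.sum_sum_type, Fintype.sum_prod_type, ite_pow,
        Real.sq_sqrt (Nat.cast_nonneg n)]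
      rw [Finset.sum_comm]
      simp [hn']
  have h := press_split (μ := isingOn (Site k n r)) (P := Measure.dirac ())
    (σ := fun _ _ => (1 : ℝ)) (f := D.pot c₀) (B := |c₀| + 1) (D.measurable_pot c₀) (D.abs_pot_le c₀)
    hpat (fun _ _ => rfl) hn (fun _ => measurable_const)
    (ising_marginal k n r) (α := α) (δ := 0) hα (fun b => by simp)
  have e : press (isingMeasure (k * n + r)) (D.pot c₀) ⌊α * ((k * n + r : ℕ) : ℝ)⌋₊
      = press (isingOn (Site k n r)) (D.pot c₀) ⌊α * ((k * n + r : ℕ) : ℝ)⌋₊ := by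
    let e0 : Site k n r ≃ Fin (k * n + r) :=
      (Equiv.sumCongr finProdFinEquiv (Equiv.refl _)).trans finSumFinEquiv
    rw [isingMeasure_eq, ← isingOn_reindex e0, map_proj_univ e0 _ _ (D.measurable_pot c₀)]
  rw [e, isingMeasure_eq]
  exact h

/-- Frequencies tagged with a sign. -/
noncomputable def tagged (ν₁ ν₂ : Measure ℝ) (s : ℝ) : Measure (ℝ × ℝ) :=
  (symm2 ν₁).map (fun ξ => (ξ, s)) + (symm2 ν₂).map (fun ξ => (ξ, -s))

lemma symm2_map_neg (ν : Measure ℝ) [IsFiniteMeasure ν] :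
    (symm2 ν).map (fun ξ => -ξ) = symm2 ν := by
  rw [symm2, Measure.map_smul, Measure.map_add _ _ measurable_neg,
    Measure.map_map measurable_neg measurable_neg]
  rw [show ((fun ξ : ℝ => -ξ) ∘ fun ξ : ℝ => -ξ) = id from funext fun x => neg_neg x, Measure.map_id,
    add_comm]

lemma integral_symm2_even (ν : Measure ℝ) [IsFiniteMeasure ν] {g : ℝ → ℝ} (hg : Measurable g)
    (he : ∀ x, g (-x) = g x) (hi : Integrable g ν) :
    Integrable g (symm2 ν) ∧ ∫ x, g x ∂symm2 ν = ∫ x, g x ∂ν := by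
  have hi' : Integrable g (ν.map fun ξ => -ξ) :=
    (integrable_map_measure hg.aestronglyMeasurable measurable_neg.aemeasurable).2
      (hi.congr (ae_of_all _ fun x => (he x).symm))
  have h2 : Integrable g (symm2 ν) := (hi.add_measure hi').smul_measure_nnreal
  refine ⟨h2, ?_⟩
  rw [symm2, integral_smul_nnreal_measure, integral_add_measure hi hi',
    integral_map measurable_neg.aemeasurable hg.aestronglyMeasurable]
  simp [he, NNReal.smul_def]
  ring

/-- Weakly coupled even potentials of either sign: the limit exists at every density. -/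
theorem small_limit (ν₁ ν₂ : Measure ℝ) [IsFiniteMeasure ν₁] [IsFiniteMeasure ν₂]
    (h₁ : Integrable (fun ξ => ξ ^ 2) ν₁) (h₂ : Integrable (fun ξ => ξ ^ 2) ν₂)
    (hb : (∫ ξ, ξ ^ 2 * Real.exp (-ξ ^ 2 / 2) ∂ν₁) ≠ ∫ ξ, ξ ^ 2 * Real.exp (-ξ ^ 2 / 2) ∂ν₂)
    (t : ℝ) (ht0 : t ≠ 0) (ht : |t| * (ν₁.real Set.univ + ν₂.real Set.univ) ≤ 1 / 4)
    (hcond : 108 * |t| * (ν₁.real Set.univ + ν₂.real Set.univ)
        * ((∫ ξ, ξ ^ 2 ∂ν₁) + ∫ ξ, ξ ^ 2 ∂ν₂) ^ 2
      ≤ ((∫ ξ, ξ ^ 2 * Real.exp (-ξ ^ 2 / 2) ∂ν₁) - ∫ ξ, ξ ^ 2 * Real.exp (-ξ ^ 2 / 2) ∂ν₂) ^ 2)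
    (c₀ : ℝ) {α : ℝ} (hα : 0 < α) :
    ∃ L, Tendsto (fun N => pressure α (fun x => c₀ + Real.log (1 + t *
      ((∫ ξ, Real.cos (ξ * x) ∂ν₁) - ∫ ξ, Real.cos (ξ * x) ∂ν₂))) N (isingMeasure N))
      atTop (𝓝 L) := by
  set m := ν₁.real Set.univ + ν₂.real Set.univ with hm
  obtain ⟨s, hts, hs⟩ : ∃ s : ℝ, |t| * s = t ∧ |s| = 1 :=
    ⟨t / |t|, by field_simp, by simp [abs_div, ht0]⟩
  have hmpos : 0 < m := by
    rcases eq_or_lt_of_le (show 0 ≤ m from add_nonneg measureReal_nonneg measureReal_nonneg) with h | h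
    · exfalso
      have e1 : ν₁ = 0 := by
        rw [← Measure.measure_univ_eq_zero, ← measureReal_eq_zero_iff]
        linarith [measureReal_nonneg (μ := ν₂) (s := Set.univ),
          measureReal_nonneg (μ := ν₁) (s := Set.univ)]
      have e2 : ν₂ = 0 := by
        rw [← Measure.measure_univ_eq_zero, ← measureReal_eq_zero_iff]
        linarith [measureReal_nonneg (μ := ν₂) (s := Set.univ),
          measureReal_nonneg (μ := ν₁) (s := Set.univ)]
      simp [e1, e2] at hb
    · exact h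
  set T := tagged ν₁ ν₂ s
  have hTuniv : T Set.univ = ENNReal.ofReal m := by
    rw [show T Set.univ = symm2 ν₁ Set.univ + symm2 ν₂ Set.univ by
      simp [T, tagged, Measure.map_apply (by fun_prop : Measurable fun ξ : ℝ => (ξ, s)),
        Measure.map_apply (by fun_prop : Measurable fun ξ : ℝ => (ξ, -s))],
      hm, ENNReal.ofReal_add measureReal_nonneg measureReal_nonneg, ← symm2_real_univ ν₁,
      ← symm2_real_univ ν₂, ofReal_measureReal, ofReal_measureReal]
  -- integrals against the tagged measure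
  have hint : ∀ g : ℝ → ℝ, Measurable g → (∀ x, g (-x) = g x) → Integrable g ν₁ → Integrable g ν₂ →
      ∀ (φ : ℝ → ℝ), Integrable (fun p : ℝ × ℝ => φ p.2 * g p.1) T → Measurable φ →
      ∫ p, φ p.2 * g p.1 ∂T = φ s * ∫ x, g x ∂ν₁ + φ (-s) * ∫ x, g x ∂ν₂ := by
    intro g hg he i1 i2 φ hi hφ
    have hi' := integrable_add_measure.1 hi
    rw [show T = (symm2 ν₁).map (fun ξ => (ξ, s)) + (symm2 ν₂).map (fun ξ => (ξ, -s)) from rfl,
      integral_add_measure hi'.1 hi'.2, integral_map (by fun_prop) (by fun_prop),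
      integral_map (by fun_prop) (by fun_prop)]
    simp only [integral_const_mul, (integral_symm2_even ν₁ hg he i1).2,
      (integral_symm2_even ν₂ hg he i2).2]
  have hI : ∀ g : ℝ → ℝ, Measurable g → (∀ x, g (-x) = g x) → Integrable g ν₁ → Integrable g ν₂ →
      ∀ φ : ℝ → ℝ, Measurable φ → Integrable (fun p : ℝ × ℝ => φ p.2 * g p.1) T := by
    intro g hg he i1 i2 φ hφ
    refine integrable_add_measure.2 ⟨?_, ?_⟩ <;>
      refine (integrable_map_measure (by fun_prop) (by fun_prop)).2 ?_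
    · exact (integral_symm2_even ν₁ hg he i1).1.const_mul (φ s)
    · exact (integral_symm2_even ν₂ hg he i2).1.const_mul (φ (-s))
  have hgauss : ∀ ν : Measure ℝ, Integrable (fun ξ => ξ ^ 2) ν →
      Integrable (fun ξ => ξ ^ 2 * Real.exp (-ξ ^ 2 / 2)) ν := fun ν h =>
    h.mono' (by fun_prop) (ae_of_all _ fun ξ => by
      rw [Real.norm_eq_abs, abs_mul, Real.abs_exp, abs_of_nonneg (sq_nonneg _)]
      exact mul_le_of_le_one_right (sq_nonneg _) (Real.exp_le_one_iff.2 (by nlinarith [sq_nonneg ξ])))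
  have hmne : ENNReal.ofReal m ≠ 0 := (ENNReal.ofReal_pos.2 hmpos).ne'
  have hscale : ∀ G : ℝ × ℝ → ℝ, ∫ p, G p ∂((ENNReal.ofReal m)⁻¹ • T) = m⁻¹ * ∫ p, G p ∂T := fun G => by
    rw [integral_smul_measure, ENNReal.toReal_inv, ENNReal.toReal_ofReal hmpos.le, smul_eq_mul]
  set D : Data :=
    { m := |t| * m
      law := (ENNReal.ofReal m)⁻¹ • T
      prob := ⟨by
        rw [Measure.smul_apply, hTuniv, smul_eq_mul, ENNReal.inv_mul_cancel hmne ENNReal.ofReal_ne_top]⟩
      m0 := by positivity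
      m1 := ht
      sign := Measure.ae_smul_measure (by
        rw [show T = (symm2 ν₁).map (fun ξ => (ξ, s)) + (symm2 ν₂).map (fun ξ => (ξ, -s)) from rfl,
          ae_add_measure_iff]
        constructor <;>
          refine (ae_map_iff (by fun_prop) (measurableSet_le (by fun_prop) (by fun_prop))).2
            (ae_of_all _ fun ξ => ?_) <;>
          simp [hs]) _
      symm := by
        rw [Measure.map_smul]
        congr 1
        rw [show T = (symm2 ν₁).map (fun ξ => (ξ, s)) + (symm2 ν₂).map (fun ξ => (ξ, -s)) from rfl,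
          Measure.map_add _ _ (by fun_prop), Measure.map_map (by fun_prop) (by fun_prop),
          Measure.map_map (by fun_prop) (by fun_prop)]
        congr 1
        · conv_rhs => rw [← symm2_map_neg ν₁, Measure.map_map (by fun_prop) (by fun_prop)]
          rfl
        · conv_rhs => rw [← symm2_map_neg ν₂, Measure.map_map (by fun_prop) (by fun_prop)]
          rfl
      sq := by
        have h := hI (fun x => x ^ 2) (by fun_prop) (fun x => neg_sq x) h₁ h₂ (fun _ => 1) (by fun_prop)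
        simp only [one_mul] at h
        exact h.smul_measure (by simp [hmpos]) } with hDdef
  have hu : ∀ x, D.u x = t * ((∫ ξ, Real.cos (ξ * x) ∂ν₁) - ∫ ξ, Real.cos (ξ * x) ∂ν₂) := by
    intro x
    have hg : ∀ ν : Measure ℝ, IsFiniteMeasure ν → Integrable (fun ξ => Real.cos (ξ * x)) ν :=
      fun ν h => Integrable.of_bound (by fun_prop) 1 (ae_of_all _ fun ξ => by
        rw [Real.norm_eq_abs]; exact Real.abs_cos_le_one _)
    show |t| * m * ∫ p, p.2 * Real.cos (p.1 * x) ∂((ENNReal.ofReal m)⁻¹ • T) = _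
    have h := hint (fun ξ => Real.cos (ξ * x)) (by fun_prop) (fun y => by rw [neg_mul, Real.cos_neg])
      (hg _ inferInstance) (hg _ inferInstance) id
      (hI _ (by fun_prop) (fun y => by rw [neg_mul, Real.cos_neg]) (hg _ inferInstance)
        (hg _ inferInstance) id measurable_id) measurable_id
    simp only [id] at h
    rw [hscale, h, mul_assoc, mul_inv_cancel_left₀ hmpos.ne']
    linear_combination ((∫ ξ, Real.cos (ξ * x) ∂ν₁) - ∫ ξ, Real.cos (ξ * x) ∂ν₂) * hts
  have hs2 : D.s2 = m⁻¹ * ((∫ ξ, ξ ^ 2 ∂ν₁) + ∫ ξ, ξ ^ 2 ∂ν₂) := by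
    show ∫ p, p.1 ^ 2 ∂((ENNReal.ofReal m)⁻¹ • T) = _
    have h := hint (fun x => x ^ 2) (by fun_prop) (fun x => neg_sq x) h₁ h₂ (fun _ => 1)
      (hI _ (by fun_prop) (fun x => neg_sq x) h₁ h₂ (fun _ => 1) measurable_const) measurable_const
    simp only [one_mul] at h
    rw [hscale, h]
  have ha2 : D.a2 = m⁻¹ * (s * ((∫ ξ, ξ ^ 2 * Real.exp (-ξ ^ 2 / 2) ∂ν₁)
      - ∫ ξ, ξ ^ 2 * Real.exp (-ξ ^ 2 / 2) ∂ν₂)) := by
    show ∫ p, p.2 * (p.1 ^ 2 * Real.exp (-p.1 ^ 2 / 2)) ∂((ENNReal.ofReal m)⁻¹ • T) = _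
    have he : ∀ x : ℝ, (-x) ^ 2 * Real.exp (-(-x) ^ 2 / 2) = x ^ 2 * Real.exp (-x ^ 2 / 2) :=
      fun x => by rw [neg_sq]
    have h := hint _ (by fun_prop) he (hgauss _ h₁) (hgauss _ h₂) id
      (hI _ (by fun_prop) he (hgauss _ h₁) (hgauss _ h₂) id measurable_id) measurable_id
    simp only [id] at h
    rw [hscale, h]
    ring
  have hD : 108 * D.m * D.s2 ^ 2 ≤ D.a2 ^ 2 := by
    rw [hs2, ha2, show D.m = |t| * m from rfl]
    have hs2' : s ^ 2 = 1 := by rw [← sq_abs, hs, one_pow]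
    simp only [mul_pow, hs2', one_mul]
    have := mul_le_mul_of_nonneg_left hcond (by positivity : 0 ≤ m⁻¹ ^ 2)
    linarith
  have e : (fun x => c₀ + Real.log (1 + t *
      ((∫ ξ, Real.cos (ξ * x) ∂ν₁) - ∫ ξ, Real.cos (ξ * x) ∂ν₂))) = D.pot c₀ := by
    funext x; simp only [Data.pot, hu]
  rw [e]
  exact limit_of_data D hD c₀ hα

end Vale.Agent.P157.Small
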