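import Vale.Agent.P157.Kernel

/-!
One pattern for the potential `log (1 + u)`, `u` the cosine transform of a small signed measure:
moments of the Gibbs average as integrals over replicas.
-/

open MeasureTheory ProbabilityTheory Complex
open scoped BigOperators

namespace Vale.Agent.P157.Small

variable {ι : Type*} [Fintype ι]

/-- A small signed measure, as a mass `m` times a symmetric law of (frequency, sign). -/
structure Data where
  /-- total mass -/
  m : ℝ
  /-- law of frequency and sign -/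
  law : Measure (ℝ × ℝ)
  prob : IsProbabilityMeasure law
  m0 : 0 ≤ m
  m1 : m ≤ 1 / 4
  sign : ∀ᵐ p ∂law, |p.2| ≤ 1
  symm : law.map (fun p => (-p.1, p.2)) = law
  /-- finite second moment -/
  sq : Integrable (fun p : ℝ × ℝ => p.1 ^ 2) law

instance (D : Data) : IsProbabilityMeasure D.law := D.prob

/-- The transform. -/
noncomputable def Data.u (D : Data) (t : ℝ) : ℝ := D.m * ∫ p, p.2 * Real.cos (p.1 * t) ∂D.law

lemma Data.abs_u_le (D : Data) (t : ℝ) : |D.u t| ≤ D.m := by
  rw [Data.u, abs_mul, abs_of_nonneg D.m0]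
  refine mul_le_of_le_one_right D.m0 ?_
  refine (norm_integral_le_of_norm_le_const (μ := D.law) (C := 1)
    (f := fun p : ℝ × ℝ => p.2 * Real.cos (p.1 * t)) (D.sign.mono fun p hp => ?_)).trans (by simp)
  rw [Real.norm_eq_abs, abs_mul]
  exact mul_le_one₀ hp (abs_nonneg _) (Real.abs_cos_le_one _)

@[fun_prop]
lemma Data.measurable_u (D : Data) : Measurable D.u := by
  unfold Data.u
  exact measurable_const.mul (StronglyMeasurable.integral_prod_right
    (f := fun (t : ℝ) (p : ℝ × ℝ) => p.2 * Real.cos (p.1 * t))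
    (Measurable.stronglyMeasurable (by fun_prop))).measurable

lemma integrable_sign_mul (D : Data) {h : ℝ × ℝ → ℂ} (hm : Measurable h) (hb : ∀ p, ‖h p‖ ≤ 1) :
    Integrable (fun p => (p.2 : ℂ) * h p) D.law :=
  Integrable.of_bound (by fun_prop) 1 (D.sign.mono fun p hp => by
    rw [norm_mul, norm_real, Real.norm_eq_abs]
    exact mul_le_one₀ hp (norm_nonneg _) (hb p))

lemma Data.cexp_u (D : Data) (t : ℝ) :
    ∫ p, (p.2 : ℂ) * cexp ((p.1 * t : ℝ) * I) ∂D.law
      = ((∫ p, p.2 * Real.cos (p.1 * t) ∂D.law : ℝ) : ℂ) := by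
  have hi : Integrable (fun p : ℝ × ℝ => (p.2 : ℂ) * cexp ((p.1 * t : ℝ) * I)) D.law :=
    integrable_sign_mul D (by fun_prop) fun p => by rw [norm_exp_ofReal_mul_I]
  have hn : Integrable (fun p : ℝ × ℝ => (p.2 : ℂ) * cexp ((-p.1 * t : ℝ) * I)) D.law :=
    integrable_sign_mul D (by fun_prop) fun p => by rw [norm_exp_ofReal_mul_I]
  have hs : ∫ p, (p.2 : ℂ) * cexp ((-p.1 * t : ℝ) * I) ∂D.law
      = ∫ p, (p.2 : ℂ) * cexp ((p.1 * t : ℝ) * I) ∂D.law := by
    conv_rhs => rw [← D.symm]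
    rw [integral_map (by fun_prop) (by fun_prop)]
  have h2 : (2 : ℂ) * ∫ p, (p.2 : ℂ) * cexp ((p.1 * t : ℝ) * I) ∂D.law
      = 2 * ((∫ p, p.2 * Real.cos (p.1 * t) ∂D.law : ℝ) : ℂ) := by
    rw [← integral_complex_ofReal, ← integral_const_mul (μ := D.law) (2 : ℂ)
      (fun p : ℝ × ℝ => ((p.2 * Real.cos (p.1 * t) : ℝ) : ℂ)), two_mul]
    nth_rewrite 2 [← hs]
    rw [← integral_add hi hn]
    refine integral_congr_ae (ae_of_all _ fun p => ?_)
    push_cast
    rw [Complex.cos]
    ring_nf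
  exact mul_left_cancel₀ two_ne_zero h2

/-- A replica: configuration, frequency and sign. -/
abbrev Rep (ι : Type*) := (ι → ℝ) × (ℝ × ℝ)

/-- Law of `n` replicas. -/
noncomputable def repLaw (D : Data) (G : Measure (ι → ℝ)) (n : ℕ) : Measure (Fin n → Rep ι) :=
  Measure.pi fun _ => G.prod D.law

instance (D : Data) (G : Measure (ι → ℝ)) [IsProbabilityMeasure G] (n : ℕ) :
    IsProbabilityMeasure (repLaw D G n) := by unfold repLaw; infer_instance

/-- The weighted overlap. -/
def ov (c x y : ι → ℝ) : ℝ := ∑ j, c j ^ 2 * (x j * y j)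

/-- The quadratic form of the replicas. -/
def qf (c : ι → ℝ) {n : ℕ} (p : Fin n → Rep ι) : ℝ :=
  ∑ j, (∑ a, (p a).2.1 * (c j * (p a).1 j)) ^ 2

lemma qf_nonneg (c : ι → ℝ) {n : ℕ} (p : Fin n → Rep ι) : 0 ≤ qf c p :=
  Finset.sum_nonneg fun _ _ => sq_nonneg _

lemma qf_eq (c : ι → ℝ) {n : ℕ} (p : Fin n → Rep ι) :
    qf c p = ∑ a, ∑ a', (p a).2.1 * (p a').2.1 * ov c (p a).1 (p a').1 := by
  have e : ∀ j, (∑ a, (p a).2.1 * (c j * (p a).1 j)) ^ 2
      = ∑ a, ∑ a', (p a).2.1 * (p a').2.1 * (c j ^ 2 * ((p a).1 j * (p a').1 j)) := fun j => by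
    rw [sq, Finset.sum_mul_sum]
    exact Finset.sum_congr rfl fun a _ => Finset.sum_congr rfl fun a' _ => by ring
  simp only [qf, e, ov, Finset.mul_sum]
  rw [Finset.sum_comm]
  exact Finset.sum_congr rfl fun a _ => Finset.sum_comm

/-- The integrand of the moment. -/
noncomputable def wt (c : ι → ℝ) {n : ℕ} (p : Fin n → Rep ι) : ℝ :=
  (∏ a, (p a).2.2) * Real.exp (-qf c p / 2)

@[fun_prop]
lemma measurable_wt (c : ι → ℝ) (n : ℕ) : Measurable (wt c : (Fin n → Rep ι) → ℝ) := by
  unfold wt qf; fun_prop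

omit [Fintype ι] in
lemma ae_sign (D : Data) (G : Measure (ι → ℝ)) [IsProbabilityMeasure G] (n : ℕ) :
    ∀ᵐ p ∂repLaw D G n, ∀ a, |(p a).2.2| ≤ 1 := by
  rw [ae_all_iff]
  intro a
  exact (Measure.quasiMeasurePreserving_eval (μ := fun _ : Fin n => G.prod D.law) (i := a)).ae
    ((Measure.quasiMeasurePreserving_snd (μ := G) (ν := D.law)).ae D.sign)

omit [Fintype ι] in
lemma abs_sign_prod_le {n : ℕ} {p : Fin n → Rep ι} (h : ∀ a, |(p a).2.2| ≤ 1) :
    |∏ a, (p a).2.2| ≤ 1 := by
  rw [Finset.abs_prod]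
  exact Finset.prod_le_one (fun a _ => abs_nonneg _) fun a _ => h a

lemma abs_wt_le (c : ι → ℝ) {n : ℕ} {p : Fin n → Rep ι} (h : ∀ a, |(p a).2.2| ≤ 1) :
    |wt c p| ≤ 1 := by
  rw [wt, abs_mul, Real.abs_exp]
  exact mul_le_one₀ (abs_sign_prod_le h) (Real.exp_pos _).le
    (Real.exp_le_one_iff.2 (by linarith [qf_nonneg c p]))

lemma integrable_wt (D : Data) (G : Measure (ι → ℝ)) [IsProbabilityMeasure G] (c : ι → ℝ) (n : ℕ) :
    Integrable (wt c) (repLaw D G n) :=
  Integrable.of_bound (measurable_wt c n).aestronglyMeasurable 1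
    ((ae_sign D G n).mono fun p hp => (Real.norm_eq_abs _).trans_le (abs_wt_le c hp))

/-- The Gibbs average of the transform of the field. -/
noncomputable def Data.gibbs (D : Data) (G : Measure (ι → ℝ)) (c g : ι → ℝ) : ℝ :=
  ∫ x, D.u (field c g x) ∂G

/-- Gaussian average of a power of the Gibbs average. -/
noncomputable def Data.mom (D : Data) (G : Measure (ι → ℝ)) (c : ι → ℝ) (n : ℕ) : ℝ :=
  ∫ g, D.gibbs G c g ^ n ∂gaussVec ι

lemma Data.abs_gibbs_le (D : Data) (G : Measure (ι → ℝ)) [IsProbabilityMeasure G] (c g : ι → ℝ) :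
    |D.gibbs G c g| ≤ D.m :=
  (norm_integral_le_of_norm_le_const (μ := G) (f := fun x => D.u (field c g x)) (C := D.m)
    (ae_of_all _ fun _ => (Real.norm_eq_abs _).trans_le (D.abs_u_le _))).trans (by simp)

lemma Data.measurable_gibbs (D : Data) (G : Measure (ι → ℝ)) [IsProbabilityMeasure G] (c : ι → ℝ) :
    Measurable (D.gibbs G c) :=
  (StronglyMeasurable.integral_prod_right (f := fun g x => D.u (field c g x))
    (by exact (D.measurable_u.comp (by unfold field; fun_prop)).stronglyMeasurable)).measurable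

lemma Data.mom_eq (D : Data) (G : Measure (ι → ℝ)) [IsProbabilityMeasure G] (c : ι → ℝ) (n : ℕ) :
    D.mom G c n = D.m ^ n * ∫ p, wt c p ∂repLaw D G n := by
  set P := repLaw D G n
  have hp : ∀ g : ι → ℝ, (((∫ x, ∫ p, p.2 * Real.cos (p.1 * field c g x) ∂D.law ∂G) ^ n : ℝ) : ℂ)
      = ∫ p, ((∏ a, (p a).2.2 : ℝ) : ℂ)
          * cexp ((∑ j, g j * (∑ a, (p a).2.1 * (c j * (p a).1 j)) : ℝ) * I) ∂P := by
    intro g
    push_cast
    rw [← integral_complex_ofReal]
    simp_rw [← D.cexp_u]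
    have hi : Integrable (fun z : Rep ι => (z.2.2 : ℂ) * cexp ((z.2.1 * field c g z.1 : ℝ) * I))
        (G.prod D.law) :=
      Integrable.of_bound (by unfold field; fun_prop) 1
        (((Measure.quasiMeasurePreserving_snd (μ := G) (ν := D.law)).ae D.sign).mono fun z hz => by
          rw [norm_mul, norm_real, norm_exp_ofReal_mul_I, mul_one]; exact hz)
    rw [← integral_prod (fun z : Rep ι => (z.2.2 : ℂ) * cexp ((z.2.1 * field c g z.1 : ℝ) * I)) hi]
    have := integral_fintype_prod_eq_pow (ι := Fin n) (μ := G.prod D.law)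
      (fun z : Rep ι => (z.2.2 : ℂ) * cexp ((z.2.1 * field c g z.1 : ℝ) * I))
    rw [Fintype.card_fin] at this
    rw [← this]
    refine integral_congr_ae (ae_of_all _ fun p => ?_)
    simp only [Finset.prod_mul_distrib, ← Complex.exp_sum, ← Finset.sum_mul, ← Complex.ofReal_sum]
    push_cast
    congr 3
    have : ∑ a, (p a).2.1 * field c g (p a).1
        = ∑ j, g j * ∑ a, (p a).2.1 * (c j * (p a).1 j) := by
      simp only [field, Finset.mul_sum]
      rw [Finset.sum_comm]
      exact Finset.sum_congr rfl fun j _ => Finset.sum_congr rfl fun a _ => by ring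
    exact_mod_cast this
  have e : D.mom G c n
      = D.m ^ n * ∫ g, (∫ x, ∫ p, p.2 * Real.cos (p.1 * field c g x) ∂D.law ∂G) ^ n ∂gaussVec ι := by
    rw [← integral_const_mul]
    refine integral_congr_ae (ae_of_all _ fun g => ?_)
    simp only [Data.gibbs, Data.u, integral_const_mul, mul_pow]
  rw [e]
  congr 1
  apply Complex.ofReal_injective
  rw [← integral_complex_ofReal, ← integral_complex_ofReal]
  simp_rw [hp]
  rw [integral_integral_swap]
  · refine integral_congr_ae (ae_of_all _ fun p => ?_)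
    simp only [integral_const_mul, gauss_cexp, wt, qf, Complex.ofReal_mul]
  · refine Integrable.of_bound (by fun_prop) 1 ?_
    have hs := (Measure.quasiMeasurePreserving_snd (μ := gaussVec ι) (ν := P)).ae (ae_sign D G n)
    refine hs.mono fun z hz => ?_
    rw [Function.uncurry_def]
    rw [norm_mul, norm_exp_ofReal_mul_I, mul_one, norm_real, Real.norm_eq_abs]
    exact abs_sign_prod_le hz

end Vale.Agent.P157.Small
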