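import Vale.Agent.P157.Small.Gap
import Mathlib.Analysis.SpecificLimits.Normed

/-!
The second moment has a strict convexity gap, which dominates all higher moments for a small
signed measure: one pattern seen jointly is at least the average over the blocks.
-/

open MeasureTheory ProbabilityTheory
open scoped BigOperators

namespace Vale.Agent.P157.Small

variable {ι : Type*} [Fintype ι] {β : Type*} [Fintype β] (D : Data)

/-- Fourier moment of order `k` against the Gaussian weight. -/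
noncomputable def fk (k : ℕ) (q : ℝ × ℝ) : ℝ := q.2 * (q.1 ^ k * Real.exp (-q.1 ^ 2 / 2))

lemma fk_odd {k : ℕ} (hk : Odd k) : ∫ q, fk k q ∂D.law = 0 := by
  have : ∫ q, fk k q ∂D.law = -∫ q, fk k q ∂D.law := by
    conv_lhs => rw [← D.symm]
    rw [integral_map (by fun_prop) (by unfold fk; fun_prop), ← integral_neg]
    refine integral_congr_ae (ae_of_all _ fun q => ?_)
    simp only [fk, hk.neg_pow, neg_sq]
    ring
  linarith

variable {c : ι → ℝ} {cb : β → ι → ℝ} {w : β → ℝ}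

/-- The Jensen defect of a power of the overlap. -/
noncomputable def dk (c : ι → ℝ) (cb : β → ι → ℝ) (w : β → ℝ) (k : ℕ) (x y : ι → ℝ) : ℝ :=
  ((∑ b, w b * (-ov (cb b) x y) ^ k) - (-ov c x y) ^ k) / k.factorial

lemma dk_nonneg (hw0 : ∀ b, 0 ≤ w b) (hw1 : ∑ b, w b = 1)
    (hc : ∀ j, c j ^ 2 = ∑ b, w b * cb b j ^ 2) {k : ℕ} (hk : Even k) (x y : ι → ℝ) :
    0 ≤ dk c cb w k x y := by
  refine div_nonneg (sub_nonneg.2 ?_) (Nat.cast_nonneg _)
  have e : -ov c x y = ∑ b, w b • -ov (cb b) x y := by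
    simp [ov_avg c cb w hc, Finset.sum_neg_distrib]
  rw [e]
  exact (Even.convexOn_pow hk).map_sum_le (fun b _ => hw0 b) hw1 fun _ _ => Set.mem_univ _

lemma dk_two (hw1 : ∑ b, w b = 1) (hc : ∀ j, c j ^ 2 = ∑ b, w b * cb b j ^ 2) (x y : ι → ℝ) :
    dk c cb w 2 x y = spread c cb w x y / 2 := by
  have e : ∑ b, w b * (ov (cb b) x y * ov c x y) = ov c x y * ov c x y := by
    conv_rhs => arg 1; rw [ov_avg c cb w hc]
    rw [Finset.sum_mul]; exact Finset.sum_congr rfl fun b _ => by ring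
  have e2 : spread c cb w x y
      = (∑ b, w b * ov (cb b) x y ^ 2) - 2 * (∑ b, w b * (ov (cb b) x y * ov c x y))
        + (∑ b, w b) * ov c x y ^ 2 := by
    simp only [spread, Finset.mul_sum, Finset.sum_mul, ← Finset.sum_sub_distrib, ← Finset.sum_add_distrib]
    exact Finset.sum_congr rfl fun b _ => by ring
  simp only [dk, neg_sq, Nat.factorial_two, Nat.cast_ofNat, e2, e, hw1]
  ring

variable (G : Measure (ι → ℝ)) [IsProbabilityMeasure G]

/-- The gap of the second moment. -/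
lemma second_gap (hw0 : ∀ b, 0 ≤ w b) (hw1 : ∑ b, w b = 1)
    (hc : ∀ j, c j ^ 2 = ∑ b, w b * cb b j ^ 2) (hv : ∀ b, Unitary G (cb b)) :
    D.a2 ^ 2 / 2 * avgSpread G c cb w ≤ ∫ p, defect c cb w p ∂repLaw D G 2 := by
  have hgood := ae_good hw1 hc hv
  set T : ℕ → Rep ι × Rep ι → ℝ := fun k z => fk k z.1.2 * fk k z.2.2 * dk c cb w k z.1.1 z.2.1
  set P2 := (G.prod D.law).prod (G.prod D.law)
  have hTm : ∀ k, Measurable (T k) := fun k => by simp only [T, fk, dk, ov]; fun_prop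
  have hg1 : ∀ᵐ z ∂P2, ((ov c z.1.1 z.1.1 = 1 ∧ ∀ b, ov (cb b) z.1.1 z.1.1 = 1) ∧ |z.1.2.2| ≤ 1) ∧
      ((ov c z.2.1 z.2.1 = 1 ∧ ∀ b, ov (cb b) z.2.1 z.2.1 = 1) ∧ |z.2.2.2| ≤ 1) := by
    have h1 : ∀ᵐ z ∂G.prod D.law, (ov c z.1 z.1 = 1 ∧ ∀ b, ov (cb b) z.1 z.1 = 1) ∧ |z.2.2| ≤ 1 :=
      ((Measure.quasiMeasurePreserving_fst (μ := G) (ν := D.law)).ae hgood).and
        ((Measure.quasiMeasurePreserving_snd (μ := G) (ν := D.law)).ae D.sign)
    exact ((Measure.quasiMeasurePreserving_fst (μ := G.prod D.law) (ν := G.prod D.law)).ae h1).and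
      ((Measure.quasiMeasurePreserving_snd (μ := G.prod D.law) (ν := G.prod D.law)).ae h1)
  -- the series
  set F : Rep ι × Rep ι → ℝ := fun z => defect c cb w (![z.1, z.2] : Fin 2 → Rep ι)
  set bd : ℕ → Rep ι × Rep ι → ℝ := fun k z =>
    2 * ((|z.1.2.1| * |z.2.2.1|) ^ k / k.factorial) * Real.exp (-(z.1.2.1 ^ 2 + z.2.2.1 ^ 2) / 2)
  have hF : ∀ᵐ z ∂P2, (∀ k, ‖T k z‖ ≤ bd k z) ∧ HasSum (fun k => T k z) (F z) := by
    filter_upwards [hg1] with z ⟨⟨hx, hs⟩, hy, ht⟩
    set ξ := z.1.2.1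
    set η := z.2.2.1
    refine ⟨fun k => ?_, ?_⟩
    · have hR : ∀ b, |(-ov (cb b) z.1.1 z.2.1) ^ k| ≤ 1 := fun b => by
        rw [abs_pow, abs_neg]; exact pow_le_one₀ (abs_nonneg _) (abs_ov_le (hx.2 b) (hy.2 b))
      have hR0 : |(-ov c z.1.1 z.2.1) ^ k| ≤ 1 := by
        rw [abs_pow, abs_neg]; exact pow_le_one₀ (abs_nonneg _) (abs_ov_le hx.1 hy.1)
      have hd : |dk c cb w k z.1.1 z.2.1| ≤ 2 / k.factorial := by
        rw [dk, abs_div, Nat.abs_cast]
        refine div_le_div_of_nonneg_right ((abs_sub _ _).trans ?_) (Nat.cast_nonneg _)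
        have : |∑ b, w b * (-ov (cb b) z.1.1 z.2.1) ^ k| ≤ 1 := by
          refine (Finset.abs_sum_le_sum_abs _ _).trans ((Finset.sum_le_sum fun b _ => ?_).trans hw1.le)
          rw [abs_mul, abs_of_nonneg (hw0 b)]
          exact mul_le_of_le_one_right (hw0 b) (hR b)
        linarith
      have hf : |fk k z.1.2 * fk k z.2.2| ≤ (|ξ| * |η|) ^ k * Real.exp (-(ξ ^ 2 + η ^ 2) / 2) := by
        have e : (|ξ| * |η|) ^ k * Real.exp (-(ξ ^ 2 + η ^ 2) / 2)
            = (|ξ| ^ k * Real.exp (-ξ ^ 2 / 2)) * (|η| ^ k * Real.exp (-η ^ 2 / 2)) := by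
          rw [mul_pow, mul_mul_mul_comm, ← Real.exp_add]; congr 2; ring
        rw [e, abs_mul]
        refine mul_le_mul ?_ ?_ (abs_nonneg _) (by positivity) <;>
          (simp only [fk, abs_mul, abs_pow, Real.abs_exp]
           exact mul_le_of_le_one_left (by positivity) (by assumption))
      rw [Real.norm_eq_abs]
      simp only [T, bd, abs_mul]
      rw [abs_mul] at hf
      calc _ ≤ (|ξ| * |η|) ^ k * Real.exp (-(ξ ^ 2 + η ^ 2) / 2) * (2 / k.factorial) :=
            mul_le_mul hf hd (abs_nonneg _) (by positivity)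
        _ = _ := by ring
    · have hexp : ∀ r : ℝ, HasSum (fun k : ℕ => r ^ k / k.factorial) (Real.exp r) := fun r => by
        have := NormedSpace.expSeries_div_hasSum_exp r
        rwa [congr_fun Real.exp_eq_exp_ℝ r] 
      set K := z.1.2.2 * z.2.2.2 * (Real.exp (-ξ ^ 2 / 2) * Real.exp (-η ^ 2 / 2))
      have h1 := ((hasSum_sum (s := Finset.univ) fun b _ =>
        (hexp (-(ξ * η * ov (cb b) z.1.1 z.2.1))).mul_left (w b)).sub
          (hexp (-(ξ * η * ov c z.1.1 z.2.1)))).mul_left K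
      have hq : ∀ d : ι → ℝ, ov d z.1.1 z.1.1 = 1 → ov d z.2.1 z.2.1 = 1 →
          wt d (![z.1, z.2] : Fin 2 → Rep ι) = K * Real.exp (-(ξ * η * ov d z.1.1 z.2.1)) := by
        intro d h1 h2
        have h3 : ov d z.2.1 z.1.1 = ov d z.1.1 z.2.1 :=
          Finset.sum_congr rfl fun j _ => by ring
        simp only [wt, qf_eq, Fin.sum_univ_two, Fin.prod_univ_two, Matrix.cons_val_zero,
          Matrix.cons_val_one, h1, h2, h3, K, mul_one]
        rw [mul_assoc (z.1.2.2 * z.2.2.2), ← Real.exp_add, ← Real.exp_add]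
        congr 2; ring
      have hval : F z = K * (∑ b, w b * Real.exp (-(ξ * η * ov (cb b) z.1.1 z.2.1))
          - Real.exp (-(ξ * η * ov c z.1.1 z.2.1))) := by
        simp only [F, defect, hq c hx.1 hy.1, fun b => hq (cb b) (hx.2 b) (hy.2 b), mul_sub,
          Finset.mul_sum]
        congr 1
        exact Finset.sum_congr rfl fun b _ => by ring
      rw [hval]
      refine h1.congr_fun fun k => ?_
      simp only [T, fk, dk, K, ← mul_div_assoc, ← Finset.sum_div, ← sub_div]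
      rw [show ∑ b, w b * (-(ξ * η * ov (cb b) z.1.1 z.2.1)) ^ k
          = (ξ * η) ^ k * ∑ b, w b * (-ov (cb b) z.1.1 z.2.1) ^ k by
        rw [Finset.mul_sum]
        exact Finset.sum_congr rfl fun b _ => by rw [← mul_neg, mul_pow]; ring,
        show (-(ξ * η * ov c z.1.1 z.2.1)) ^ k = (ξ * η) ^ k * (-ov c z.1.1 z.2.1) ^ k by
          rw [← mul_neg, mul_pow], mul_pow]
      ring
  have hbd : ∀ z, HasSum (fun k => bd k z)
      (2 * Real.exp (|z.1.2.1| * |z.2.2.1|) * Real.exp (-(z.1.2.1 ^ 2 + z.2.2.1 ^ 2) / 2)) := fun z => by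
    have := NormedSpace.expSeries_div_hasSum_exp (|z.1.2.1| * |z.2.2.1|)
    rw [congr_fun Real.exp_eq_exp_ℝ]
    exact (this.mul_left 2).mul_right _
  have hsum := hasSum_integral_of_dominated_convergence (μ := P2) (F := T) (f := F) bd
    (fun k => (hTm k).aestronglyMeasurable) (fun k => hF.mono fun z hz => hz.1 k)
    (ae_of_all _ fun z => (hbd z).summable) ?_ (hF.mono fun z hz => hz.2)
  swap
  · refine Integrable.of_bound ?_ 2 (ae_of_all _ fun z => ?_)
    · simp_rw [fun z => (hbd z).tsum_eq]; fun_prop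
    · rw [(hbd z).tsum_eq, Real.norm_eq_abs, abs_of_pos (by positivity), mul_assoc, ← Real.exp_add]
      refine mul_le_of_le_one_right two_pos.le (Real.exp_le_one_iff.2 ?_)
      nlinarith [sq_abs z.1.2.1, sq_abs z.2.2.1, sq_nonneg (|z.1.2.1| - |z.2.2.1|)]
  -- the terms
  have hterm : ∀ k, ∫ z, T k z ∂P2
      = (∫ q, fk k q ∂D.law) ^ 2 * ∫ z, dk c cb w k z.1 z.2 ∂G.prod G := by
    intro k
    have hTi : Integrable (T k) P2 := by
      refine Integrable.of_bound (hTm k).aestronglyMeasurable 2 (hF.mono fun z hz => ?_)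
      refine (hz.1 k).trans ((le_hasSum (hbd z) k fun j _ => ?_).trans ?_)
      · positivity
      · rw [mul_assoc, ← Real.exp_add]
        refine mul_le_of_le_one_right two_pos.le (Real.exp_le_one_iff.2 ?_)
        nlinarith [sq_abs z.1.2.1, sq_abs z.2.2.1, sq_nonneg (|z.1.2.1| - |z.2.2.1|)]
    have hdi : Integrable (fun z : (ι → ℝ) × (ι → ℝ) => dk c cb w k z.1 z.2) (G.prod G) := by
      refine Integrable.of_bound (by unfold dk ov; fun_prop) 2 ?_
      filter_upwards [(Measure.quasiMeasurePreserving_fst (μ := G) (ν := G)).ae hgood,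
        (Measure.quasiMeasurePreserving_snd (μ := G) (ν := G)).ae hgood] with z hx hy
      rw [Real.norm_eq_abs, dk, abs_div, Nat.abs_cast]
      refine (div_le_self (abs_nonneg _) (by exact_mod_cast k.factorial_pos)).trans
        ((abs_sub _ _).trans ?_)
      have h0 : |(-ov c z.1 z.2) ^ k| ≤ 1 := by
        rw [abs_pow, abs_neg]; exact pow_le_one₀ (abs_nonneg _) (abs_ov_le hx.1 hy.1)
      have : |∑ b, w b * (-ov (cb b) z.1 z.2) ^ k| ≤ 1 := by
        refine (Finset.abs_sum_le_sum_abs _ _).trans ((Finset.sum_le_sum fun b _ => ?_).trans hw1.le)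
        rw [abs_mul, abs_of_nonneg (hw0 b), abs_pow, abs_neg]
        exact mul_le_of_le_one_right (hw0 b) (pow_le_one₀ (abs_nonneg _) (abs_ov_le (hx.2 b) (hy.2 b)))
      linarith
    rw [integral_prod _ hTi]
    have inner : ∀ z : Rep ι, ∫ z', T k (z, z') ∂G.prod D.law
        = (∫ y, dk c cb w k z.1 y ∂G) * (fk k z.2 * ∫ q, fk k q ∂D.law) := by
      intro z
      calc ∫ z', T k (z, z') ∂G.prod D.law
          = ∫ z' : Rep ι, dk c cb w k z.1 z'.1 * (fk k z.2 * fk k z'.2) ∂G.prod D.law :=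
            integral_congr_ae (ae_of_all _ fun z' => by simp only [T]; ring)
        _ = (∫ y, dk c cb w k z.1 y ∂G) * ∫ q, fk k z.2 * fk k q ∂D.law :=
            integral_prod_mul (f := fun y => dk c cb w k z.1 y) (g := fun q => fk k z.2 * fk k q)
        _ = _ := by rw [integral_const_mul]
    simp only [inner]
    calc _ = (∫ x, ∫ y, dk c cb w k x y ∂G ∂G) * ∫ q, fk k q * ∫ q', fk k q' ∂D.law ∂D.law :=
          integral_prod_mul (f := fun x => ∫ y, dk c cb w k x y ∂G)
            (g := fun q => fk k q * ∫ q', fk k q' ∂D.law)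
      _ = _ := by rw [integral_prod _ hdi, integral_mul_const]; ring
  have hnn : ∀ k, 0 ≤ ∫ z, T k z ∂P2 := fun k => by
    rw [hterm]
    rcases Nat.even_or_odd k with hk | hk
    · exact mul_nonneg (sq_nonneg _) (integral_nonneg fun z => dk_nonneg hw0 hw1 hc hk _ _)
    · simp [fk_odd D hk]
  have h2 : D.a2 ^ 2 / 2 * avgSpread G c cb w = ∫ z, T 2 z ∂P2 := by
    rw [hterm, avgSpread]
    simp only [dk_two hw1 hc, integral_div]
    rw [show ∫ q, fk 2 q ∂D.law = D.a2 from rfl]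
    ring
  have hle : D.a2 ^ 2 / 2 * avgSpread G c cb w ≤ ∫ z, F z ∂P2 := by
    rw [h2]; exact le_hasSum hsum 2 fun j _ => hnn j
  refine hle.trans (le_of_eq ?_)
  have hmap := map_pair (G.prod D.law) (show (0 : Fin 2) ≠ 1 by decide)
  rw [show P2 = (repLaw D G 2).map fun p => (p 0, p 1) from hmap.symm, integral_map (by fun_prop)
    (by simp only [F, defect, wt, qf]; fun_prop)]
  refine integral_congr_ae (ae_of_all _ fun p => ?_)
  simp only [F]
  congr 1
  funext a; fin_cases a <;> rfl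

lemma cube_le (n : ℕ) : ((n : ℝ) + 3) ^ 3 ≤ 27 * 3 ^ n := by
  induction n with
  | zero => norm_num
  | succ k ih =>
    push_cast
    rw [pow_succ (3:ℝ) k]
    have hk : (0:ℝ) ≤ k := k.cast_nonneg
    nlinarith [mul_nonneg hk hk, pow_nonneg hk 3]

/-- One pattern, joint against blocks, for a small signed transform. -/
lemma log_one_add_concave (hD : 108 * D.m * D.s2 ^ 2 ≤ D.a2 ^ 2)
    (hw0 : ∀ b, 0 ≤ w b) (hw1 : ∑ b, w b = 1)
    (hc : ∀ j, c j ^ 2 = ∑ b, w b * cb b j ^ 2) (hv : ∀ b, Unitary G (cb b)) :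
    ∑ b, w b * ∫ g, Real.log (1 + D.gibbs G (cb b) g) ∂gaussVec ι
      ≤ ∫ g, Real.log (1 + D.gibbs G c g) ∂gaussVec ι := by
  have hm := D.m1
  have hm0 := D.m0
  have hm1 : |D.m| < 1 := by rw [abs_of_nonneg hm0]; linarith
  have series : ∀ d : ι → ℝ, HasSum (fun n : ℕ => (-1) ^ (n + 1) * D.mom G d (n + 1) / (n + 1))
      (-∫ g, Real.log (1 + D.gibbs G d g) ∂gaussVec ι) := by
    intro d
    rw [← integral_neg]
    have hms := D.measurable_gibbs G d
    have := hasSum_integral_of_dominated_convergence (μ := gaussVec ι)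
      (F := fun (n : ℕ) g => (-D.gibbs G d g) ^ (n + 1) / (n + 1))
      (f := fun g => -Real.log (1 + D.gibbs G d g))
      (fun n _ => D.m ^ (n + 1) / (n + 1))
      (fun n => ((hms.neg.pow_const (n + 1)).div_const _).aestronglyMeasurable)
      (fun n => ae_of_all _ fun g => by
        rw [Real.norm_eq_abs, abs_div, abs_pow, abs_neg,
          abs_of_nonneg (by positivity : (0:ℝ) ≤ n + 1)]
        gcongr; exact D.abs_gibbs_le G d g)
      (ae_of_all _ fun _ => (Real.hasSum_pow_div_log_of_abs_lt_one hm1).summable)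
      (integrable_const _)
      (ae_of_all _ fun g => by
        have := Real.hasSum_pow_div_log_of_abs_lt_one (x := -D.gibbs G d g)
          (by rw [abs_neg]; linarith [D.abs_gibbs_le G d g])
        simpa using this)
    refine HasSum.congr_fun this fun n => ?_
    rw [integral_div, Data.mom, ← integral_const_mul]
    congr 1
    exact integral_congr_ae (ae_of_all _ fun g => (neg_pow _ _).symm)
  have hd : ∀ n : ℕ, (∑ b, w b * ((-1) ^ (n + 1) * D.mom G (cb b) (n + 1) / (n + 1)))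
      - (-1) ^ (n + 1) * D.mom G c (n + 1) / (n + 1)
      = (-1) ^ (n + 1) * D.m ^ (n + 1) / (n + 1) * ∫ p, defect c cb w p ∂repLaw D G (n + 1) := by
    intro n
    simp only [defect]
    rw [integral_sub (integrable_finsetSum _ fun b _ => (integrable_wt D G _ _).const_mul _)
      (integrable_wt D G _ _), integral_finsetSum _ fun b _ => (integrable_wt D G _ _).const_mul _]
    simp only [integral_const_mul, D.mom_eq, mul_sub, Finset.mul_sum]
    congr 1
    · exact Finset.sum_congr rfl fun b _ => by ring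
    · ring
  have hS := ((hasSum_sum (s := Finset.univ) fun b _ => (series (cb b)).mul_left (w b)).sub (series c))
  simp only [hd] at hS
  set V := avgSpread G c cb w
  have hV : 0 ≤ V := avgSpread_nonneg G hw0
  set I : ℕ → ℝ := fun k => ∫ p, defect c cb w p ∂repLaw D G k
  have hI1 : I 1 = 0 := by
    have : ∀ᵐ p ∂repLaw D G 1, defect c cb w p = 0 := by
      have hg := (Measure.quasiMeasurePreserving_eval (μ := fun _ : Fin 1 => G.prod D.law) (i := 0)).ae
        ((Measure.quasiMeasurePreserving_fst (μ := G) (ν := D.law)).ae (ae_good hw1 hc hv))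
      filter_upwards [hg] with p hp
      simp [defect, wt, qf_eq, hp.1, hp.2, ← Finset.sum_mul, hw1]
    simp [I, integral_congr_ae this]
  have tail : ∀ n : ℕ, -(27 / 4 * (D.s2 ^ 2 * V) * D.m ^ 3 * (3 * D.m) ^ n)
      ≤ (-1) ^ (n + 2 + 1) * D.m ^ (n + 2 + 1) / (((n + 2 : ℕ) : ℝ) + 1) * I (n + 2 + 1) := by
    intro n
    have hB := abs_integral_defect_le D G hw0 hw1 hc hv (n + 2 + 1)
    refine le_trans ?_ (neg_abs_le _)
    refine neg_le_neg ?_
    rw [abs_mul, abs_div, abs_mul, abs_pow, abs_pow, abs_neg, abs_one, one_pow, one_mul,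
      abs_of_nonneg hm0, abs_of_pos (by positivity : (0:ℝ) < ((n + 2 : ℕ) : ℝ) + 1)]
    refine (mul_le_mul_of_nonneg_left hB (by positivity)).trans ?_
    have hcube := cube_le n
    calc D.m ^ (n + 2 + 1) / (((n + 2 : ℕ) : ℝ) + 1) * (((n + 2 + 1 : ℕ) : ℝ) ^ 4 / 4 * (D.s2 ^ 2 * V))
        = ((n : ℝ) + 3) ^ 3 * (D.m ^ 3 * D.m ^ n / 4 * (D.s2 ^ 2 * V)) := by
          push_cast
          field_simp
          ring
      _ ≤ 27 * 3 ^ n * (D.m ^ 3 * D.m ^ n / 4 * (D.s2 ^ 2 * V)) :=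
          mul_le_mul_of_nonneg_right hcube (by positivity)
      _ = _ := by rw [mul_pow]; ring
  have hgeo : HasSum (fun n : ℕ => -(27 / 4 * (D.s2 ^ 2 * V) * D.m ^ 3 * (3 * D.m) ^ n))
      (-(27 / 4 * (D.s2 ^ 2 * V) * D.m ^ 3 * (1 - 3 * D.m)⁻¹)) :=
    ((hasSum_geometric_of_lt_one (by linarith) (by linarith)).mul_left _).neg
  have h0 := (hasSum_nat_add_iff' 2).2 hS
  have hle := hasSum_le tail hgeo (by simpa only [I] using h0)
  simp only [Finset.sum_range_succ, Finset.sum_range_zero, zero_add, Nat.cast_zero, Nat.cast_one] at hle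
  have h2 := second_gap D G hw0 hw1 hc hv
  simp only [I] at hI1
  rw [hI1] at hle
  norm_num at hle
  have hinv : (1 - 3 * D.m)⁻¹ ≤ 4 := by
    rw [inv_le_comm₀ (by linarith) (by norm_num)]; linarith
  have hkey : 27 / 4 * (D.s2 ^ 2 * V) * D.m ^ 3 * (1 - 3 * D.m)⁻¹ ≤ D.m ^ 2 / 4 * D.a2 ^ 2 * V := by
    calc _ ≤ 27 / 4 * (D.s2 ^ 2 * V) * D.m ^ 3 * 4 := mul_le_mul_of_nonneg_left hinv (by positivity)
      _ = D.m ^ 2 / 4 * (108 * D.m * D.s2 ^ 2) * V := by ring
      _ ≤ _ := mul_le_mul_of_nonneg_right (mul_le_mul_of_nonneg_left hD (by positivity)) hV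
  have hkey2 := mul_le_mul_of_nonneg_left h2 (by positivity : (0:ℝ) ≤ D.m ^ 2 / 2)
  linarith [Finset.sum_neg_distrib (s := (Finset.univ : Finset β))
    (f := fun b => w b * ∫ g, Real.log (1 + D.gibbs G (cb b) g) ∂gaussVec ι)]

end Vale.Agent.P157.Small
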